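import Vale.Agent.P148.R2.H488.N4h

/-!
# Second moments of the values of the cells, with high probability

* `comb_sq_ev` : lower bounds for the events of the comb and the second moments of the values of
  all cells, with high probability, on the sites of a world
* `quen_ev` : the quenched inputs of the law of large numbers (`H598.Quen`)
-/

set_option linter.unusedSectionVars false

open Set Relation Metric Function Filter
open scoped ENNReal Classical

namespace Vale.Agent.P148.R2.H488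

open Vale.Agent.P148.R2.F (whp)

open Vale.Agent.P148.R2.H184 (Dt EQ rt Wt)
open Vale.Agent.P148.R2.H566 (Ev)
open Vale.Agent.P148.R2.N (ms nc gateC cellC gbox cell csq ms_pos)
open Vale.Agent.P148.R2.H504 (cF bset tk gw qm)
open Vale.Agent.P148.R2.H172 (combLaw cs)
open Vale.Agent.P148.R2.H953 (ex pr On)
open Vale.Agent.P148.R2.H291 (site bR SiteOK CT CD ev_of_whp whp_of_ev)
open _root_.P148

universe u v

/-- **The law of the comb on the sites of a world**: lower bounds for the events and second moments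
of the values of the cells, with high probability. -/
theorem comb_sq_ev : ∃ c > 0, ∀ (τ : ℂ) (κ : ℝ) (Θ : Dt → ℂ), Wt τ κ Θ → ∀ (M : ℕ)
    (hM0 : 0 < M), 2 ≤ M → ∀ R : ℝ, 7 ≤ R → Ev.{u} fun T => ∀ (V : Type v) [Fintype V]
      (e : V → ℂ), Injective e → range e = site T R →
      (∀ k < nc M, c ≤ pr ((combLaw hM0 (site T R) e).He k)) ∧
      (∀ k < nc M, c ≤ pr ((combLaw hM0 (site T R) e).Ce k)) ∧
      ∀ k < nc M, (combLaw hM0 (site T R) e).qe (fun c₁ c₂ => ‖cF M e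
        (fun k => cw (hc M k) Θ) k ((combLaw hM0 (site T R) e).w c₁ c₂)‖ ^ 2) ≤
          KC c κ * ms M ^ 2 := by
  obtain ⟨c, hc, h⟩ := H172.comb_law_site.{u, v}
  refine ⟨c, hc, fun τ κ Θ hΘ M hM0 hM R hR => ev_of_whp ?_⟩
  have h0 := ms_pos hM0
  have hs : Ev.{u} fun T => SiteOK T R (ms M / 16) :=
    H291.ev_siteOK (by linarith) (by positivity) (by linarith [N.ms_le_one (M := M)])
  have hE : ∀ᶠ m in whp.{u}, ∀ k ∈ Finset.range (nc M),
      EQ (pts m.2) (closedBall (cellC M k) (2 * ms M)) Θ ≤ ENNReal.ofReal (CT κ (2 * ms M)) :=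
    (Finset.eventually_all _).2 fun k _ => H291.whp_EQ hΘ _ (by positivity) subset_rfl
  filter_upwards [whp_of_ev (h M hM0 R hR), whp_of_ev hs, hE] with m h1 h2 h3 V _ e he hr
  have hag : range e ∩ ball 0 6 = pts m.2 ∩ ball 0 6 := by
    rw [hr]
    exact h2.agree (ball_subset_ball (by linarith))
  obtain ⟨h4, h5⟩ := h1 V e he hag
  exact ⟨h4, h5, fun k hk => comb_sq he hr.symm hr hM hM0 hk hR h2 (by linarith) hc h4 h5 hΘ.tau
    hΘ.rot (h3 k (Finset.mem_range.2 hk))⟩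

/-- The same with `range e` as the set of points. -/
theorem comb_sq_range : ∃ c > 0, ∀ (τ : ℂ) (κ : ℝ) (Θ : Dt → ℂ), Wt τ κ Θ → ∀ (M : ℕ)
    (hM0 : 0 < M), 2 ≤ M → ∀ R : ℝ, 7 ≤ R → Ev.{u} fun T => ∀ (V : Type v) [Fintype V]
      (e : V → ℂ), Injective e → range e = site T R →
      (∀ k < nc M, c ≤ pr ((combLaw hM0 (range e) e).He k)) ∧
      (∀ k < nc M, c ≤ pr ((combLaw hM0 (range e) e).Ce k)) ∧
      ∀ k < nc M, (combLaw hM0 (range e) e).qe (fun c₁ c₂ => ‖cF M e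
        (fun k => cw (hc M k) Θ) k ((combLaw hM0 (range e) e).w c₁ c₂)‖ ^ 2) ≤
          KC c κ * ms M ^ 2 := by
  obtain ⟨c, hc, h⟩ := comb_sq_ev.{u, v}
  refine ⟨c, hc, fun τ κ Θ hΘ M hM0 hM R hR => ev_of_whp ?_⟩
  filter_upwards [whp_of_ev (h τ κ Θ hΘ M hM0 hM R hR)] with m h1 V _ e he hr
  have h2 := h1 V e he hr
  rw [← hr] at h2
  exact h2

/-- **The quenched inputs of the law of large numbers**, with high probability. -/
theorem quen_ev : ∃ c > 0, ∀ (τ : ℂ) (κ : ℝ) (Θ : Dt → ℂ), Wt τ κ Θ → ∀ (M : ℕ)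
    (hM0 : 0 < M), 2 ≤ M → ∀ R : ℝ, 7 ≤ R → Ev.{u} fun T => ∀ (V : Type v) [Fintype V]
      (e : V → ℂ), Injective e → range e = site T R → ∀ r : ℕ, 20 ≤ r →
      H598.Quen M r (KC c κ) (gw (combLaw hM0 (site T R) e))
        (fun k p => cF M e (fun k => cw (hc M k) Θ) k ((combLaw hM0 (site T R) e).w p.1 p.2))
        (fun k => qm (combLaw hM0 (site T R) e) (cF M e (fun k => cw (hc M k) Θ) k)) := by
  obtain ⟨c, hc, h⟩ := comb_sq_ev.{u, v}
  refine ⟨c, hc, fun τ κ Θ hΘ M hM0 hM R hR => ev_of_whp ?_⟩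
  filter_upwards [whp_of_ev (h τ κ Θ hΘ M hM0 hM R hR)] with m h1 V _ e he hr r hr'
  obtain ⟨h2, h3, h4⟩ := h1 V e he hr
  exact H504.quen_comb (combLaw hM0 (site m.2 R) e) hM0 rfl (fun _ => rfl) (fun _ => rfl) hc h2 h3
    hr' _ h4

end Vale.Agent.P148.R2.H488
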