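import Vale.Agent.P148.R2.H959.Reg
import Vale.Agent.P148.R2.H184.L6
import Vale.Agent.P148.R2.H565.Loc4

/-!
# Assignment of the faces to the cells of the ring

`cw A Θ` is the weight `Θ` on the triples with circumcentre in `A`. `hc M k` is the half-open cell:
the half-open cells are pairwise disjoint and cover a neighbourhood of the regions of the tubes.
-/

open Set Metric Complex

namespace Vale.Agent.P148.R2.H488

open Vale.Agent.P148.R2.H184
open Vale.Agent.P148.R2.H592 (cr)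
open Vale.Agent.P148.R2.N (ms nc gateC cellC gbox cell csq disp ms_pos ms_le_one M_mul_ms mod_mul_eq
  mod_mul_le mod_le I_pow_mul_self_pow exists_eq_I_pow_mul div_lt_four)
open Vale.Agent.P148.R2.H959 (reg)

/-! ### the weight of a region -/

open Classical in
/-- The weight `Θ` on the triples with circumcentre in `A`. -/
noncomputable def cw (A : Set ℂ) (Θ : Dt → ℂ) (d : Dt) : ℂ :=
  if cr d.1 d.2.1 d.2.2 ≠ 0 ∧ cc d ∈ A then Θ d else 0

variable {A : Set ℂ} {Θ : Dt → ℂ}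

theorem cw_of {d : Dt} (h1 : cr d.1 d.2.1 d.2.2 ≠ 0) (h2 : cc d ∈ A) : cw A Θ d = Θ d :=
  if_pos ⟨h1, h2⟩

theorem cw_ne {d : Dt} (h : cw A Θ d ≠ 0) : cr d.1 d.2.1 d.2.2 ≠ 0 ∧ cc d ∈ A ∧ Θ d ≠ 0 := by
  unfold cw at h
  by_cases h1 : cr d.1 d.2.1 d.2.2 ≠ 0 ∧ cc d ∈ A
  · rw [if_pos h1] at h; exact ⟨h1.1, h1.2, h⟩
  · rw [if_neg h1] at h; exact absurd rfl h

theorem norm_cw_le (d : Dt) : ‖cw A Θ d‖ ≤ ‖Θ d‖ := by
  unfold cw
  split_ifs
  · exact le_rfl
  · simp

theorem cw_rot {τ : ℂ} (h : ∀ d, Θ (rt d) = τ ^ 2 * Θ d) (d : Dt) :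
    cw A Θ (rt d) = τ ^ 2 * cw A Θ d := by
  unfold cw
  by_cases h0 : cr d.1 d.2.1 d.2.2 = 0
  · have : cr (rt d).1 (rt d).2.1 (rt d).2.2 = 0 := by rw [cr_rt, h0]
    rw [if_neg (fun hh => hh.1 this), if_neg (fun hh => hh.1 h0), mul_zero]
  · rw [cr_rt, cc_rt h0]
    by_cases h1 : cr d.1 d.2.1 d.2.2 ≠ 0 ∧ cc d ∈ A
    · rw [if_pos h1, if_pos h1, h]
    · rw [if_neg h1, if_neg h1, mul_zero]

/-- Equivariance. -/
theorem cw_sm {α β : ℂ} (hα : α ≠ 0) (d : Dt) :
    cw (H565.sm α β '' A) Θ (H565.smD α β d) = cw A (fun e => Θ (H565.smD α β e)) d := by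
  unfold cw
  have hcr : cr (H565.smD α β d).1 (H565.smD α β d).2.1 (H565.smD α β d).2.2 =
      ‖α‖ ^ 2 * cr d.1 d.2.1 d.2.2 := H565.cr_sm α β _ _ _
  by_cases h0 : cr d.1 d.2.1 d.2.2 = 0
  · rw [if_neg (fun hh => hh.1 (by rw [hcr, h0, mul_zero])), if_neg (fun hh => hh.1 h0)]
  · have h1 : cr (H565.smD α β d).1 (H565.smD α β d).2.1 (H565.smD α β d).2.2 ≠ 0 := by
      rw [hcr]
      exact mul_ne_zero (pow_ne_zero _ (norm_ne_zero_iff.2 hα)) h0
    have h2 : cc (H565.smD α β d) ∈ H565.sm α β '' A ↔ cc d ∈ A := by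
      rw [H565.cc_sm hα h0]
      constructor
      · rintro ⟨w, hw, he⟩
        rwa [← H565.sm_inj hα he]
      · exact fun hw => ⟨_, hw, rfl⟩
    by_cases h3 : cc d ∈ A
    · rw [if_pos ⟨h1, h2.2 h3⟩, if_pos ⟨h0, h3⟩]
    · rw [if_neg (fun hh => h3 (h2.1 hh.2)), if_neg (fun hh => h3 hh.2)]

theorem measurable_cw (hA : MeasurableSet A) (hΘ : Measurable Θ) : Measurable (cw A Θ) := by
  unfold cw
  refine Measurable.ite ?_ hΘ measurable_const
  refine MeasurableSet.inter ?_ (measurable_cc hA)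
  exact (measurable_cr (measurableSet_singleton (0 : ℝ))).compl

/-- The weights of the parts of a partition add up. -/
theorem sum_cw {ι : Type*} (s : Finset ι) (B : ι → Set ℂ) {d : Dt}
    (h0 : cr d.1 d.2.1 d.2.2 ≠ 0) {i : ι} (hi : i ∈ s) (h1 : cc d ∈ B i)
    (h2 : ∀ j ∈ s, cc d ∈ B j → j = i) : ∑ j ∈ s, cw (B j) Θ d = Θ d := by
  classical
  rw [Finset.sum_eq_single i]
  · exact cw_of h0 h1
  · intro j hj hji
    unfold cw
    exact if_neg fun hh => hji (h2 j hj hh.2)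
  · exact fun hh => absurd hi hh

/-! ### half-open cells -/

/-- The half-open cell. -/
def hc (M k : ℕ) : Set ℂ :=
  {z | ∃ w : ℂ, z = I ^ (k / (2 * M + 1)) * w ∧ (1 < w.re ∧ w.re < 1 + ms M) ∧
    (-1 + (k % (2 * M + 1) : ℕ) * ms M ≤ w.im ∧
      w.im < -1 + (k % (2 * M + 1) : ℕ) * ms M + ms M)}

variable {M k l : ℕ}

theorem mem_hc {w : ℂ} : I ^ (k / (2 * M + 1)) * w ∈ hc M k ↔
    (1 < w.re ∧ w.re < 1 + ms M) ∧ (-1 + (k % (2 * M + 1) : ℕ) * ms M ≤ w.im ∧
      w.im < -1 + (k % (2 * M + 1) : ℕ) * ms M + ms M) := by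
  constructor
  · rintro ⟨w', h1, h2⟩
    have : w = w' := mul_left_cancel₀ (pow_ne_zero _ I_ne_zero) h1
    rw [this]; exact h2
  · intro h
    exact ⟨w, rfl, h⟩

theorem hc_add_nc (M k : ℕ) : hc M (k + nc M) = hc M k := by
  unfold hc
  rw [N.div_add_nc, N.mod_add_nc, N.I_pow_add_four]

theorem cell_subset_hc (M k : ℕ) : cell M k ⊆ hc M k := by
  intro z hz
  obtain ⟨w, rfl⟩ := exists_eq_I_pow_mul (k / (2 * M + 1)) z
  obtain ⟨h1, h2, h3⟩ := N.mem_cell_iff.1 hz
  exact mem_hc.2 ⟨h1, h2.le, h3⟩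

/-- The half-open strip of one side. -/
def hstrip (M : ℕ) : Set ℂ :=
  {w | (1 < w.re ∧ w.re < 1 + ms M) ∧ (-1 ≤ w.im ∧ w.im < 1 + ms M)}

theorem hstrip_rot {w : ℂ} (hw : w ∈ hstrip M) {s : ℕ} (hs : s < 4)
    (h : I ^ s * w ∈ hstrip M) : s = 0 := by
  obtain ⟨⟨a1, a2⟩, a3, a4⟩ := hw
  obtain ⟨⟨b1, b2⟩, b3, b4⟩ := h
  interval_cases s
  · rfl
  · simp only [pow_one, mul_re, mul_im, I_re, I_im] at b1 b2 b3 b4
    linarith
  · simp only [I_sq, neg_mul, one_mul, neg_re, neg_im] at b1 b2 b3 b4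
    linarith
  · rw [show (I : ℂ) ^ 3 = -I by rw [pow_succ, I_sq]; ring] at b1 b2 b3 b4
    simp only [neg_mul, mul_re, mul_im, I_re, I_im, neg_re, neg_im] at b1 b2 b3 b4
    linarith

theorem hside_eq {s t : ℕ} (hs : s < 4) (ht : t < 4) {w w' : ℂ} (hw : w ∈ hstrip M)
    (hw' : w' ∈ hstrip M) (h : (I : ℂ) ^ s * w = I ^ t * w') : s = t := by
  rcases le_total s t with hst | hst
  · have e : w = I ^ (t - s) * w' := by
      have h1 : (I : ℂ) ^ s * w = I ^ s * (I ^ (t - s) * w') := by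
        rw [h, ← mul_assoc, ← pow_add, Nat.add_sub_cancel' hst]
      exact mul_left_cancel₀ (pow_ne_zero _ I_ne_zero) h1
    have := hstrip_rot hw' (s := t - s) (by omega) (e ▸ hw)
    omega
  · have e : w' = I ^ (s - t) * w := by
      have h1 : (I : ℂ) ^ t * w' = I ^ t * (I ^ (s - t) * w) := by
        rw [← h, ← mul_assoc, ← pow_add, Nat.add_sub_cancel' hst]
      exact mul_left_cancel₀ (pow_ne_zero _ I_ne_zero) h1
    have := hstrip_rot hw (s := s - t) (by omega) (e ▸ hw')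
    omega

theorem hc_hstrip (hM : 0 < M) {w : ℂ} (h : I ^ (k / (2 * M + 1)) * w ∈ hc M k) :
    w ∈ hstrip M := by
  have h2 := mod_mul_le hM k
  have h3 := ms_pos hM
  have h4 : (0 : ℝ) ≤ ((k % (2 * M + 1) : ℕ) : ℝ) * ms M := by positivity
  obtain ⟨⟨a1, a2⟩, a3, a4⟩ := mem_hc.1 h
  exact ⟨⟨a1, a2⟩, by linarith, by linarith⟩

/-- The half-open cells are pairwise disjoint. -/
theorem hc_unique (hM : 0 < M) (hk : k < nc M) (hl : l < nc M) {z : ℂ} (h1 : z ∈ hc M k)
    (h2 : z ∈ hc M l) : k = l := by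
  obtain ⟨w, rfl⟩ := exists_eq_I_pow_mul (k / (2 * M + 1)) z
  obtain ⟨w', hw'⟩ := exists_eq_I_pow_mul (l / (2 * M + 1)) (I ^ (k / (2 * M + 1)) * w)
  have hs := hc_hstrip hM h1
  have hs' := hc_hstrip hM (k := l) (hw' ▸ h2)
  have hside := hside_eq (div_lt_four hk) (div_lt_four hl) hs hs' hw'
  have hww : w = w' := by
    rw [hside] at hw'
    exact mul_left_cancel₀ (pow_ne_zero _ I_ne_zero) hw'
  obtain ⟨-, a3, a4⟩ := mem_hc.1 h1
  rw [hw'] at h2
  obtain ⟨-, b3, b4⟩ := mem_hc.1 h2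
  rw [← hww] at b3 b4
  have h0 := ms_pos hM
  have hmod : k % (2 * M + 1) = l % (2 * M + 1) := by
    have e1 : ((k % (2 * M + 1) : ℕ) : ℝ) < (l % (2 * M + 1) : ℕ) + 1 := by
      by_contra hc
      push Not at hc
      nlinarith
    have e2 : ((l % (2 * M + 1) : ℕ) : ℝ) < (k % (2 * M + 1) : ℕ) + 1 := by
      by_contra hc
      push Not at hc
      nlinarith
    have e3 : k % (2 * M + 1) < l % (2 * M + 1) + 1 := by exact_mod_cast e1
    have e4 : l % (2 * M + 1) < k % (2 * M + 1) + 1 := by exact_mod_cast e2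
    omega
  rw [← Nat.div_add_mod k (2 * M + 1), ← Nat.div_add_mod l (2 * M + 1), hside, hmod]

theorem hc_mod (M k : ℕ) : hc M (k % nc M) = hc M k := by
  have key : ∀ n r, hc M (r + nc M * n) = hc M r := by
    intro n
    induction n with
    | zero => intro r; simp
    | succ n ih =>
      intro r
      rw [show r + nc M * (n + 1) = (r + nc M * n) + nc M by ring, hc_add_nc, ih]
  conv_rhs => rw [← Nat.mod_add_div k (nc M)]
  exact (key _ _).symm

theorem hc_unique' (hM : 0 < M) {z : ℂ} (h1 : z ∈ hc M k) (h2 : z ∈ hc M l) :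
    k % nc M = l % nc M := by
  have hn : 0 < nc M := by unfold nc; omega
  rw [← hc_mod] at h1 h2
  exact hc_unique hM (Nat.mod_lt _ hn) (Nat.mod_lt _ hn) h1 h2

/-- **The half-open cells cover a neighbourhood of the regions.** -/
theorem hc_cover (hM : 0 < M) {z w : ℂ} (hw : w ∈ reg M k) (hz : z ∈ csq w (ms M / 16)) :
    z ∈ hc M (k + (nc M - 1)) ∨ z ∈ hc M k ∨ z ∈ hc M (k + 1) := by
  have h0 := ms_pos hM
  have hMa := mod_mul_eq hM
  have hn : 0 < nc M := by unfold nc; omega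
  set s := k / (2 * M + 1) with hs
  set j := k % (2 * M + 1) with hj
  -- the previous cell
  obtain ⟨p, hp⟩ : ∃ p, p = k + (nc M - 1) := ⟨_, rfl⟩
  have hp1 : p + 1 = k + nc M := by omega
  rw [← hp]
  have hpd : (p + 1) / (2 * M + 1) = s + 4 := by rw [hp1, N.div_add_nc]
  have hpm : (p + 1) % (2 * M + 1) = j := by rw [hp1, N.mod_add_nc]
  obtain ⟨w, rfl⟩ := exists_eq_I_pow_mul s w
  obtain ⟨z, rfl⟩ := exists_eq_I_pow_mul s z
  rw [N.csq_I_pow, N.mem_csq, abs_lt, abs_lt] at hz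
  obtain ⟨⟨c1, c2⟩, c3, c4⟩ := hz
  have hprev : j ≠ 0 → (p / (2 * M + 1) = s + 4 ∧ p % (2 * M + 1) = j - 1) := by
    intro hj0
    have hne : p % (2 * M + 1) ≠ 2 * M := by
      intro he
      have := (N.div_add_one_of_eq hM he).2
      omega
    have := N.div_add_one_of_ne hne
    omega
  have hprev0 : j = 0 → (p / (2 * M + 1) = s + 3 ∧ p % (2 * M + 1) = 2 * M) := by
    intro hj0
    have he : p % (2 * M + 1) = 2 * M := by
      by_contra hne
      have := (N.div_add_one_of_ne hne).2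
      omega
    have := N.div_add_one_of_eq hM he
    omega
  by_cases hc : j = 2 * M
  · -- corner
    obtain ⟨t, t0, t1, hz⟩ := hw
    unfold gateC disp at hz
    rw [← hs, ← hj, if_pos hc, mul_left_comm, ← mul_add, N.csq_I_pow, N.mem_csq, abs_lt, abs_lt,
      hc] at hz
    simp only [add_re, add_im, mul_re, mul_im, ofReal_re, ofReal_im, zero_mul,
      sub_zero, add_zero] at hz
    obtain ⟨⟨a1, a2⟩, a3, a4⟩ := hz
    have b1 : 0 ≤ t * (ms M / 2) := by positivity
    have b2 : t * (ms M / 2) ≤ ms M / 2 := by nlinarith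
    rw [hMa] at a3 a4
    by_cases hi : 1 ≤ z.im
    · by_cases hr : 1 < z.re
      · right; left
        refine mem_hc.2 ⟨⟨hr, by linarith⟩, ?_, ?_⟩
        · rw [← hj, hc, hMa]; linarith
        · rw [← hj, hc, hMa]; linarith
      · right; right
        have hn1 := N.div_add_one_of_eq hM (k := k) (by rw [← hj]; exact hc)
        refine ⟨-I * z, ?_, ?_, ?_⟩
        · rw [hn1.1, ← hs, pow_succ]
          have := I_mul_I
          linear_combination (I ^ s * z) * this
        · simp only [neg_mul, mul_re, I_re, I_im, neg_re]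
          constructor <;> linarith
        · rw [hn1.2]
          simp only [neg_mul, mul_im, I_re, I_im, neg_im]
          push_cast
          constructor <;> linarith
    · left
      have hj0 : j ≠ 0 := by omega
      obtain ⟨e1, e2⟩ := hprev hj0
      have e3 : (((j - 1 : ℕ) : ℝ)) * ms M = 2 - ms M := by
        rw [hc, Nat.cast_sub (by omega)]
        push_cast
        have := N.M_mul_ms hM
        linarith
      refine ⟨z, ?_, ⟨by linarith, by linarith⟩, ?_⟩
      · rw [e1, N.I_pow_add_four]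
      · rw [e2, e3]
        constructor <;> linarith
  · -- straight
    obtain ⟨⟨a1, a2⟩, a3, a4⟩ := H959.reg_straight hM (by rw [← hj]; exact hc) hw
    rw [← hj] at a3 a4
    by_cases hi : -1 + (j : ℝ) * ms M ≤ z.im
    · by_cases hi2 : z.im < -1 + (j : ℝ) * ms M + ms M
      · right; left
        exact mem_hc.2 ⟨⟨by linarith, by linarith⟩, by rw [← hj]; exact hi, by rw [← hj]; exact hi2⟩
      · right; right
        have hn1 := N.div_add_one_of_ne (k := k) (by rw [← hj]; exact hc)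
        refine ⟨z, ?_, ⟨by linarith, by linarith⟩, ?_⟩
        · rw [hn1.1]
        · rw [hn1.2, ← hj]
          push_cast
          constructor <;> linarith
    · left
      by_cases hj0 : j = 0
      · obtain ⟨e1, e2⟩ := hprev0 hj0
        rw [hj0] at hi a3 a4
        simp only [Nat.cast_zero, zero_mul, add_zero] at hi a3 a4
        refine ⟨I * z, ?_, ?_, ?_⟩
        · rw [e1, show s + 3 = s + 2 + 1 by ring, pow_succ, pow_add]
          have h2 : (I : ℂ) ^ 2 = -1 := I_sq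
          have h3 : (I : ℂ) * I = -1 := I_mul_I
          rw [h2]
          linear_combination (I ^ s * z) * h3
        · simp only [mul_re, I_re, I_im]
          constructor <;> linarith
        · rw [e2, hMa]
          simp only [mul_im, I_re, I_im]
          constructor <;> linarith
      · obtain ⟨e1, e2⟩ := hprev hj0
        have e3 : (((j - 1 : ℕ) : ℝ)) * ms M = (j : ℝ) * ms M - ms M := by
          rw [Nat.cast_sub (by omega)]
          push_cast
          ring
        refine ⟨z, ?_, ⟨by linarith, by linarith⟩, ?_⟩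
        · rw [e1, N.I_pow_add_four]
        · rw [e2, e3]
          constructor <;> linarith

end Vale.Agent.P148.R2.H488
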