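import Vale.Agent.P148.R2.H488.N4h
import Vale.Agent.P148.R2.H172.Sc2

/-!
# The transported weight on the darts of a frame

On the darts seen by the frame (tails in the regions) the weight `wt .. Ψ` is `Ψ ∘ dt`.
-/

set_option linter.unusedSectionVars false

open Set Relation Metric Function

namespace Vale.Agent.P148.R2.H488

open Vale.Agent.P148.R2.H258 Vale.Agent.P148.R2.H871 Vale.Agent.P148.R2.H565
open Vale.Agent.P148.R2.H184 (Dt cc LF EQ dt Faith rt)
open Vale.Agent.P148.R2.H592 (HullTri nbr Fc Fib idmap fib_id tail head vc)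
open Vale.Agent.P148.R2.H566 (W0)
open Vale.Agent.P148.R2.N (ms nc gateC cellC gbox cell csq ms_pos)
open Vale.Agent.P148.R2.H959 (reg)
open Vale.Agent.P148.R2.H291 (site bR SiteOK)
open Vale.Agent.P148.R2.H609 (TP piX)
open Vale.Agent.P148.R2.H172 (Frame)
open _root_.P148

/-- The weight of a Delaunay face in the full triangulation. -/
theorem wt_of_lf {X : Set ℂ} {b : ZMod 3 → ℂ} (h : HullTri X b) (x₀ : X)
    {q : Fc X b × ZMod 3} (hl : LF X univ (dt q)) (Ψ : Dt → ℂ) :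
    H203.wt h (idmap X x₀) (fib_id X x₀) Ψ q = Ψ (dt q) := by
  obtain ⟨n1, n2, n3⟩ := hl.ne
  have e1 : ((h.tri258 (idmap X x₀) (fib_id X x₀)).src q).1 = (dt q).1 := HT_src h x₀ q
  have e2 : ((h.tri258 (idmap X x₀) (fib_id X x₀)).tgt q).1 = (dt q).2.1 := HT_tgt h x₀ q
  have e3 : ((h.tri258 (idmap X x₀) (fib_id X x₀)).apex q).1 = (dt q).2.2 := HT_apex h x₀ q
  have hg : (h.tri258 (idmap X x₀) (fib_id X x₀)).Good q := by
    refine ⟨fun he => n1 ?_, fun he => n2 ?_, fun he => n3 ?_⟩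
    · rw [← e1, ← e2, he]
    · rw [← e2, ← e3, he]
    · rw [← e3, ← e1, he]
  unfold H203.wt
  rw [if_pos hg]

section world

variable {w : W0} {T : Set Pt} {R s : ℝ}

theorem wt_reg (hS : SiteOK T R s) (hX : w.X = site T R) (hb : w.b = bR R) {M : ℕ} (hR : 7 ≤ R)
    (hM : 2 ≤ M) (x₀ : w.X) {q : w.D} {l : ℕ} (hq : tail q ∈ reg M l) (Ψ : Dt → ℂ) :
    H203.wt w.hull (idmap w.X x₀) (fib_id w.X x₀) Ψ q = Ψ (dt q) := by
  obtain ⟨X, b, hull, B, conn, ne⟩ := w
  dsimp only at hX hb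
  subst hX hb
  have hM0 : 0 < M := by omega
  have h0 := ms_pos hM0
  refine wt_of_lf hull x₀ ((hS.lf ?_).mono (subset_univ _)) Ψ
  have h1 : tail q ∈ Wd M l :=
    (H959.reg_subset_csq hM0 l).trans (H504.csq_mono (by linarith)) hq
  exact ball_subset_closedBall (ball_subset_ball (by linarith) (Wd_sub_ball hM l h1))

/-- **The weights on the darts of a frame.** -/
theorem wt_frame (hS : SiteOK T R s) (hX : w.X = site T R) (hb : w.b = bR R) {M : ℕ}
    (hR : 7 ≤ R) (hM : 2 ≤ M) {x₀ : w.X} {col : w.X → Bool} (F : Frame M w x₀ col) (m : ℕ)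
    (Ψ : Dt → ℂ) : H203.wt w.hull (idmap w.X x₀) (fib_id w.X x₀) Ψ
      (((TP w x₀).st col)^[m] F.o) = Ψ (dt (((TP w x₀).st col)^[m] F.o)) := by
  obtain ⟨k, h1, h2⟩ := F.lt.loc m
  have h3 := (F.seen k m h1 h2).1
  rw [H871.src0] at h3
  exact wt_reg hS hX hb hR hM x₀ h3 Ψ

/-- **The side sums of a frame**, from any base point of its strand. -/
theorem sideSum_wt (hS : SiteOK T R s) (hX : w.X = site T R) (hb : w.b = bR R) {M : ℕ}
    (hR : 7 ≤ R) (hM : 2 ≤ M) {x₀ : w.X} {col : w.X → Bool} (F : Frame M w x₀ col)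
    (j a b : ℕ) (Ψ : Dt → ℂ) :
    sideSum (TP w x₀) col (((TP w x₀).st col)^[j] F.o) a b
      (H203.wt w.hull (idmap w.X x₀) (fib_id w.X x₀) Ψ) =
    sideSum (TP w x₀) col (((TP w x₀).st col)^[j] F.o) a b (fun q => Ψ (dt q)) := by
  classical
  unfold sideSum
  refine Finset.sum_congr rfl fun i _ => ?_
  rw [← iterate_add_apply, wt_frame hS hX hb hR hM F (i + j) Ψ]

theorem sideSum_wt0 (hS : SiteOK T R s) (hX : w.X = site T R) (hb : w.b = bR R) {M : ℕ}
    (hR : 7 ≤ R) (hM : 2 ≤ M) {x₀ : w.X} {col : w.X → Bool} (F : Frame M w x₀ col)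
    (a b : ℕ) (Ψ : Dt → ℂ) :
    sideSum (TP w x₀) col F.o a b (H203.wt w.hull (idmap w.X x₀) (fib_id w.X x₀) Ψ) =
    sideSum (TP w x₀) col F.o a b (fun q => Ψ (dt q)) :=
  sideSum_wt hS hX hb hR hM F 0 a b Ψ

end world

end Vale.Agent.P148.R2.H488
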