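import Vale.Agent.P148.R2.H565.Loc6
import Vale.Agent.P148.R2.H203.T1

/-!
# A window of a strand as one class of a contracted world

All vertices outside a region are contracted to one vertex `z` which gets the colour of the sources.
The members of the loop erased walk in a time window of the strand which stays in the region form
the part of one class of the contracted world where the weight is nonzero.
-/

namespace Vale.Agent.P148.R2.H488

open Function Vale.Agent.P148.R2.H258 Vale.Agent.P148.R2.H871 Vale.Agent.P148.R2.H565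

variable {V V2 D : Type*}

/-- The face of `f` has a corner in the fibre of `z`. -/
def Meets (T : Tri V D) (π : V → V2) (z : V2) (f : D) : Prop :=
  π (T.src f) = z ∨ π (T.tgt f) = z ∨ π (T.apex f) = z

/-- The fibre of `z` is contracted to one vertex of colour `c`; nothing else changes. -/
structure Cap (T : Tri V D) (T2 : Tri V2 D) (π : V → V2) (z : V2) (σ : V → Bool) (σ2 : V2 → Bool)
    (c : Bool) : Prop where
  contr : Contr T T2 π
  inj : ∀ u v, π u ≠ z → π u = π v → u = v
  col : ∀ v, π v ≠ z → σ2 (π v) = σ v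
  colz : σ2 z = c

variable {T : Tri V D} {T2 : Tri V2 D} {π : V → V2} {z : V2} {σ : V → Bool} {σ2 : V2 → Bool}
  {c : Bool} {o : D}

theorem not_meets {f : D} : ¬ Meets T π z f ↔
    π (T.src f) ≠ z ∧ π (T.tgt f) ≠ z ∧ π (T.apex f) ≠ z := by
  unfold Meets
  tauto

theorem src_st_or (T : Tri V D) {σ : V → Bool} {f : D} (hf : T.Bi σ f) :
    T.src (T.st σ f) = T.src f ∨ T.src (T.st σ f) = T.apex f := by
  by_cases hm : T.Mi σ f
  · right; exact T.src_st_mi hm
  · left; exact T.src_st_nmi hf hm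

theorem tgt_st_or (T : Tri V D) {σ : V → Bool} {f : D} (hf : T.Bi σ f) :
    T.tgt (T.st σ f) = T.tgt f ∨ T.tgt (T.st σ f) = T.apex f := by
  by_cases hm : T.Mi σ f
  · left; exact T.tgt_st_mi hm
  · right; exact T.tgt_st_nmi hf hm

/-- If the face of `f` is off the fibre then so is the edge of the next dart. -/
theorem edge_of_not_meets {f : D} (hf : T.Bi σ f) (h : ¬ Meets T π z f) :
    π (T.src (T.st σ f)) ≠ z ∧ π (T.tgt (T.st σ f)) ≠ z := by
  obtain ⟨h1, h2, h3⟩ := not_meets.1 h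
  constructor
  · rcases src_st_or T hf with e | e <;> rw [e] <;> assumption
  · rcases tgt_st_or T hf with e | e <;> rw [e] <;> assumption

theorem Cap.st_eq (hC : Cap T T2 π z σ σ2 c) {f : D} (h : ¬ Meets T π z f) :
    T2.st σ2 f = T.st σ f := by
  obtain ⟨h1, h2, h3⟩ := not_meets.1 h
  exact hC.contr.st_eq (hC.col _ h1) (hC.col _ h2) (hC.col _ h3)

/-- The dart before the window: it leaves `z` and is followed by the next dart of the strand. -/
theorem Cap.prev (hC : Cap T T2 π z σ σ2 c) {f : D} (hf : T.Bi σ f) (hc : σ (T.src f) = c)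
    (hm : Meets T π z f) (hn : ¬ Meets T π z (T.st σ f)) :
    ∃ e, T2.Mi σ2 e ∧ T2.src e = z ∧ T2.st σ2 e = T.st σ f ∧ Meets T π z e := by
  set g := T.st σ f with hg
  obtain ⟨n1, n2, n3⟩ := not_meets.1 hn
  have hbg : T.Bi σ g := T.bi_st.2 hf
  have hcg : σ (T.src g) = c := by rw [hg, T.col_src_st σ, hc]
  -- the third corner of the face of `rev g` is in the fibre
  have hthird : π (T.apex (T.rev g)) = z := by
    by_cases hmi : T.Mi σ f
    · have e1 : T.rev g = T.nxt f := by rw [hg, T.st_mi hmi, T.rev_rev]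
      rw [e1, T.apex_nxt]
      rcases hm with h | h | h
      · exact h
      · exfalso; apply n2; rw [hg, T.tgt_st_mi hmi]; exact h
      · exfalso; apply n1; rw [hg, T.src_st_mi hmi]; exact h
    · have e1 : T.rev g = T.nxt (T.nxt f) := by rw [hg, T.st_nmi hf hmi, T.rev_rev]
      rw [e1, T.apex_nxt2]
      rcases hm with h | h | h
      · exfalso; apply n1; rw [hg, T.src_st_nmi hf hmi]; exact h
      · exact h
      · exfalso; apply n2; rw [hg, T.tgt_st_nmi hf hmi]; exact h
  set e := T.nxt (T.nxt (T.rev g)) with he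
  have s1 : T.src e = T.apex (T.rev g) := T.src_nxt2 _
  have s2 : T.tgt e = T.tgt g := by rw [he, T.tgt_nxt2, T.src_rev]
  have s3 : T.apex e = T.src g := by rw [he, T.apex_nxt2, T.tgt_rev]
  have hz : T2.src e = z := by rw [hC.contr.src, s1, hthird]
  have hmi : T2.Mi σ2 e := by
    refine ⟨?_, ?_⟩
    · rw [hz, hC.colz, hC.contr.tgt, s2, hC.col _ n2, ← hcg]
      exact hbg
    · rw [hz, hC.colz, hC.contr.apex, s3, hC.col _ n1, hcg]
  refine ⟨e, hmi, hz, ?_, Or.inl (by rw [s1, hthird])⟩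
  rw [T2.st_mi hmi, hC.contr.nxt, hC.contr.rev, he, T.nxt3, T.rev_rev]

/-- Extending a window to the first faces which meet the fibre. -/
theorem exists_window {P : ℕ → Prop} {al be B : ℕ} (h1 : ∃ n < al, P n)
    (h2 : ∃ n, be ≤ n ∧ n < B ∧ P n) (h3 : ∀ n, al ≤ n → n < be → ¬ P n) :
    ∃ u u', u < al ∧ be ≤ u' ∧ u' < B ∧ P u ∧ P u' ∧ ∀ n, u < n → n < u' → ¬ P n := by
  classical
  obtain ⟨n1, hn1, hp1⟩ := h1
  have hs1 : P (Nat.findGreatest P (al - 1)) := Nat.findGreatest_spec (m := n1) (by omega) hp1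
  have hs2 : Nat.findGreatest P (al - 1) ≤ al - 1 := Nat.findGreatest_le _
  have hex : ∃ n, be ≤ n ∧ P n := by
    obtain ⟨n, a1, a2, a3⟩ := h2
    exact ⟨n, a1, a3⟩
  have hf := Nat.find_spec hex
  refine ⟨Nat.findGreatest P (al - 1), Nat.find hex, by omega, hf.1, ?_, hs1, hf.2, ?_⟩
  · obtain ⟨n, a1, a2, a3⟩ := h2
    exact lt_of_le_of_lt (Nat.find_min' hex ⟨a1, a3⟩) a2
  · intro n hn hn' hp
    by_cases hna : n < al
    · exact Nat.findGreatest_is_greatest (P := P) (n := al - 1) hn (by omega) hp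
    · by_cases hnb : n < be
      · exact h3 n (by omega) hnb hp
      · exact Nat.find_min hex hn' ⟨by omega, hp⟩

/-- The strand of the contracted world in the window. -/
structure Win (T : Tri V D) (T2 : Tri V2 D) (π : V → V2) (z : V2) (σ : V → Bool) (σ2 : V2 → Bool)
    (c : Bool) (o e : D) (u u' : ℕ) : Prop where
  cap : Cap T T2 π z σ σ2 c
  bi : T.Bi σ o
  cl : σ (T.src o) = c
  lt : u + 1 < u'
  mi : T2.Mi σ2 e
  src : T2.src e = z
  st : T2.st σ2 e = (T.st σ)^[u + 1] o
  fac : Meets T π z e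
  last : Meets T π z ((T.st σ)^[u'] o)
  free : ∀ n, u < n → n < u' → ¬ Meets T π z ((T.st σ)^[n] o)

section win

variable {e : D} {u u' : ℕ}

theorem Win.colsrc (h : Win T T2 π z σ σ2 c o e u u') (n : ℕ) :
    σ (T.src ((T.st σ)^[n] o)) = c := by rw [T.col_src_iter σ, h.cl]

theorem Win.iter (h : Win T T2 π z σ σ2 c o e u u') {s : ℕ} (h1 : 1 ≤ s) (h2 : u + s ≤ u') :
    (T2.st σ2)^[s] e = (T.st σ)^[u + s] o := by
  induction s with
  | zero => omega
  | succ s ih =>
    rcases Nat.eq_zero_or_pos s with rfl | hs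
    · exact h.st
    · rw [iterate_succ', comp_apply, ih hs (by omega), ← add_assoc, iterate_succ', comp_apply]
      exact h.cap.st_eq (h.free _ (by omega) (by omega))

theorem Win.edge (h : Win T T2 π z σ σ2 c o e u u') {n : ℕ} (h1 : u < n) (h2 : n ≤ u') :
    π (T.src ((T.st σ)^[n] o)) ≠ z ∧ π (T.tgt ((T.st σ)^[n] o)) ≠ z := by
  rcases h2.lt_or_eq with h3 | h3
  · obtain ⟨a, b, -⟩ := not_meets.1 (h.free n h1 h3)
    exact ⟨a, b⟩
  · have h4 := h.lt
    obtain ⟨m, rfl⟩ : ∃ m, n = m + 1 := ⟨n - 1, by omega⟩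
    rw [iterate_succ', comp_apply]
    exact edge_of_not_meets ((T.bi_iter m).2 h.bi) (h.free m (by omega) (by omega))

theorem Win.sa_eq (h : Win T T2 π z σ σ2 c o e u u') {s : ℕ} (h1 : 1 ≤ s) (h2 : u + s ≤ u') :
    sa T2 σ2 e s = π (sa T σ o (u + s)) := by
  unfold sa
  rw [h.iter h1 h2, h.cap.contr.src]

theorem Win.sa_ne (h : Win T T2 π z σ σ2 c o e u u') {s : ℕ} (h1 : 1 ≤ s) (h2 : u + s ≤ u') :
    sa T2 σ2 e s ≠ z := by
  rw [h.sa_eq h1 h2]
  exact (h.edge (n := u + s) (by omega) h2).1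

/-- Just after the window the strand of the contracted world returns to `z`. -/
theorem Win.sa_end (h : Win T T2 π z σ σ2 c o e u u') : sa T2 σ2 e (u' - u + 1) = z := by
  have h4 := h.lt
  have hit := h.iter (s := u' - u) (by omega) (by omega)
  rw [show u + (u' - u) = u' by omega] at hit
  obtain ⟨a, b⟩ := h.edge (n := u') (by omega) le_rfl
  have hap : π (T.apex ((T.st σ)^[u'] o)) = z := by
    rcases h.last with h5 | h5 | h5
    · exact absurd h5 a
    · exact absurd h5 b
    · exact h5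
  have hmi : T2.Mi σ2 ((T2.st σ2)^[u' - u] e) := by
    rw [hit]
    refine ⟨?_, ?_⟩
    · rw [h.cap.contr.src, h.cap.contr.tgt, h.cap.col _ a, h.cap.col _ b]
      exact (T.bi_iter u').2 h.bi
    · rw [h.cap.contr.src, h.cap.contr.apex, hap, h.cap.colz, h.cap.col _ a, h.colsrc]
  rw [sa_succ_mi T2 hmi, hit, h.cap.contr.apex, hap]

theorem Win.lt_per [Finite D] (h : Win T T2 π z σ σ2 c o e u u') : u' - u < per T2 σ2 e := by
  by_contra hc
  push Not at hc
  have h4 := h.lt
  have h1 := per_pos T2 σ2 e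
  exact h.sa_ne (s := per T2 σ2 e) h1 (by omega) (by rw [sa_per, h.src])

theorem Win.mi_iff (h : Win T T2 π z σ σ2 c o e u u') {n : ℕ} (h1 : u < n) (h2 : n < u') :
    T2.Mi σ2 ((T2.st σ2)^[n - u] e) ↔ T.Mi σ ((T.st σ)^[n] o) := by
  have hit := h.iter (s := n - u) (by omega) (by omega)
  rw [show u + (n - u) = n by omega] at hit
  rw [hit]
  obtain ⟨a, b, d⟩ := not_meets.1 (h.free n h1 h2)
  unfold Tri.Mi
  rw [h.cap.contr.src, h.cap.contr.tgt, h.cap.contr.apex, h.cap.col _ a, h.cap.col _ b,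
    h.cap.col _ d]

theorem Win.disj_of [Finite D] (hP : T2.Planar) (h : Win T T2 π z σ σ2 c o e u u') {n B : ℕ}
    (h1 : u < n) (h2 : n < u') (hB : u' ≤ B) (hm : T.Mi σ ((T.st σ)^[n] o))
    (hD : DisjOn T σ o 0 B n) : T2.Disj σ2 e (n - u) := by
  have hper := h.lt_per
  have hit : ∀ m, u < m → m ≤ u' → (T2.st σ2)^[m - u] e = (T.st σ)^[m] o := by
    intro m hm1 hm2
    have := h.iter (s := m - u) (by omega) (by omega)
    rwa [show u + (m - u) = m by omega] at this
  have hcol2 : ∀ i j, σ (T.src ((T.st σ)^[i] o)) ≠ σ (T.tgt ((T.st σ)^[j] o)) := by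
    intro i j
    rw [T.col_src_iter σ, T.col_tgt_iter σ]
    exact h.bi
  -- vertices met at times `(u, n]` are not later sources
  have hHS : ∀ j, n < j → j ≤ u' → π (sa T σ o j) ∉ T2.HS σ2 e (n - u) := by
    intro j hj1 hj2 hmem
    obtain ⟨i, hi1, hi2, hi3⟩ := hmem
    have e1 := h.iter (s := i) hi1 (by omega)
    rw [e1, h.cap.contr.src, h.cap.contr.tgt] at hi3
    have hjz : π (sa T σ o j) ≠ z := (h.edge (n := j) (by omega) hj2).1
    rcases hi3 with h3 | h3
    · have h5 := h.cap.inj _ _ hjz h3.symm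
      exact hD (u + i) j (Nat.zero_le _) (by omega) hj1 (by omega) h5.symm
    · have h5 := h.cap.inj _ _ hjz h3.symm
      exact hcol2 j (u + i) (by
        have := congrArg σ h5
        exact this)
  have hz : z ∉ T2.HS σ2 e (n - u) := by
    rintro ⟨i, hi1, hi2, hi3⟩
    have e1 := h.iter (s := i) hi1 (by omega)
    obtain ⟨a, b⟩ := h.edge (n := u + i) (by omega) (by omega)
    rw [e1, h.cap.contr.src, h.cap.contr.tgt] at hi3
    rcases hi3 with h3 | h3
    · exact a h3
    · exact b h3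
  have hmn : T2.Mi σ2 ((T2.st σ2)^[n - u] e) := (h.mi_iff h1 h2).2 hm
  have hapex : T2.apex ((T2.st σ2)^[n - u] e) = π (sa T σ o (n + 1)) := by
    rw [hit n h1 h2.le, h.cap.contr.apex, sa_succ_mi T hm]
  refine T2.disj_of_conn hP h.mi hmn (by omega) (by show n - u < per T2 σ2 e; omega) ?_
  refine ⟨by rw [h.src]; exact hz, by rw [hapex]; exact hHS (n + 1) (by omega) (by omega), ?_⟩
  -- the walk of the later sources, backwards
  have hb2 : T2.Bi σ2 ((T2.st σ2)^[n - u + 1] e) := (T2.bi_iter _).2 h.mi.bi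
  have hw := T2.lw_walk hb2 (u' - n)
  rw [← iterate_add_apply, show u' - n + (n - u + 1) = u' - u + 1 by omega] at hw
  have hend : T2.src ((T2.st σ2)^[u' - u + 1] e) = z := h.sa_end
  have hst : T2.src ((T2.st σ2)^[n - u + 1] e) = T2.apex ((T2.st σ2)^[n - u] e) :=
    sa_succ_mi T2 hmn
  rw [hend, hst] at hw
  refine ⟨_, by rw [h.src]; exact hw.reverse, ?_⟩
  have hsrc : ∀ i, i ≤ u' - n → σ2 (sa T2 σ2 e (n - u + 1 + i)) = σ2 (T2.src e) ∧
      sa T2 σ2 e (n - u + 1 + i) ∉ T2.HS σ2 e (n - u) := by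
    intro i hi
    refine ⟨T2.col_src_iter σ2 e _, ?_⟩
    rcases hi.lt_or_eq with h5 | h5
    · rw [h.sa_eq (by omega) (by omega)]
      exact hHS _ (by omega) (by omega)
    · rw [show n - u + 1 + i = u' - u + 1 by omega, h.sa_end]
      exact hz
  have hall : ∀ g ∈ T2.lw σ2 ((T2.st σ2)^[n - u + 1] e) (u' - n),
      (σ2 (T2.src g) = σ2 (T2.src e) ∧ T2.src g ∉ T2.HS σ2 e (n - u)) ∧
      (σ2 (T2.tgt g) = σ2 (T2.src e) ∧ T2.tgt g ∉ T2.HS σ2 e (n - u)) := by
    intro g hg
    obtain ⟨i, hi, e1, e2⟩ := T2.lw_mem hg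
    rw [← iterate_add_apply] at e1 e2
    have a1 := hsrc i (by omega)
    have a2 := hsrc (i + 1) (by omega)
    unfold sa at a1 a2
    rw [show n - u + 1 + i = i + (n - u + 1) by omega] at a1
    rw [show n - u + 1 + (i + 1) = i + 1 + (n - u + 1) by omega] at a2
    rw [e1, e2]
    exact ⟨a1, a2⟩
  intro g hg
  rw [List.mem_reverse, List.mem_map] at hg
  obtain ⟨g', hg', rfl⟩ := hg
  obtain ⟨⟨b1, b2⟩, b3, b4⟩ := hall g' hg'
  rw [T2.src_rev, T2.tgt_rev]
  exact ⟨b3, b1, b4, b2⟩

open Classical in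
/-- **The window as a class of the contracted world.** -/
theorem Win.cls_eq [Fintype D] (hP : T2.Planar) (h : Win T T2 π z σ σ2 c o e u u') {al be B : ℕ}
    (hal : u < al) (hab : al ≤ be) (hbe : be ≤ u') (hB : u' < B) {Θ : D → ℂ}
    (hz : ∀ f, Meets T π z f → Θ f = 0)
    (hout : ∀ n < B, (n < al ∨ be ≤ n) → Θ ((T.st σ)^[n] o) = 0)
    (hloc : ∀ n, al ≤ n → n < be → Θ ((T.st σ)^[n] o) ≠ 0 → T.Mi σ ((T.st σ)^[n] o) →
      DisjOn T σ o al be n → DisjOn T σ o 0 B n) :
    sideSum T σ o al be Θ = T2.cls σ2 e Θ := by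
  have hper := h.lt_per
  unfold Tri.cls
  rw [H871.cls_eq_sum T2 h.mi Θ]
  set G : ℕ → ℂ := fun s => if T2.Mi σ2 ((T2.st σ2)^[s] e) ∧ T2.Disj σ2 e s then
    Θ ((T2.st σ2)^[s] e) else 0 with hG
  have hsub : Finset.Ico (al - u) (be - u) ⊆ Finset.range (per T2 σ2 e) := by
    intro s hs
    rw [Finset.mem_Ico] at hs
    rw [Finset.mem_range]
    omega
  rw [← Finset.sum_subset hsub]
  · -- the window
    have hshift : sideSum T σ o al be Θ = ∑ s ∈ Finset.Ico (al - u) (be - u),
        (if T.Mi σ ((T.st σ)^[s + u] o) ∧ DisjOn T σ o al be (s + u) then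
          Θ ((T.st σ)^[s + u] o) else 0) := by
      unfold sideSum
      have := Finset.sum_Ico_add' (fun m => if T.Mi σ ((T.st σ)^[m] o) ∧ DisjOn T σ o al be m then
          Θ ((T.st σ)^[m] o) else 0) (al - u) (be - u) u
      rw [this, show al - u + u = al by omega, show be - u + u = be by omega]
    rw [hshift]
    apply Finset.sum_congr rfl
    intro s hs
    rw [Finset.mem_Ico] at hs
    have hit := h.iter (s := s) (by omega) (by omega)
    rw [add_comm u s] at hit
    have hmi := h.mi_iff (n := s + u) (by omega) (by omega)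
    rw [show s + u - u = s by omega] at hmi
    by_cases hT : Θ ((T.st σ)^[s + u] o) = 0
    · rw [hit, hT]; simp
    · by_cases hm : T.Mi σ ((T.st σ)^[s + u] o)
      · have key : T2.Disj σ2 e s ↔ DisjOn T σ o al be (s + u) := by
          constructor
          · intro hd i j h1 h2 h3 h4 h5
            have e1 := h.sa_eq (s := i - u) (by omega) (by omega)
            have e2 := h.sa_eq (s := j - u) (by omega) (by omega)
            rw [show u + (i - u) = i by omega] at e1
            rw [show u + (j - u) = j by omega] at e2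
            refine hd (i - u) (j - u) (by omega) (by omega) (by omega)
              (by show j - u ≤ per T2 σ2 e; omega) ?_
            show sa T2 σ2 e (i - u) = sa T2 σ2 e (j - u)
            rw [e1, e2, h5]
          · intro hd
            have := h.disj_of hP (n := s + u) (B := B) (by omega) (by omega) (by omega) hm
              (hloc _ (by omega) (by omega) hT hm hd)
            rwa [show s + u - u = s by omega] at this
        rw [hmi, key, hit]
      · rw [if_neg (fun hh => hm hh.1), if_neg (fun hh => hm (hmi.1 hh.1))]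
  · -- outside the window
    intro s hs1 hs2
    rw [Finset.mem_range] at hs1
    rw [Finset.mem_Ico] at hs2
    split_ifs with hh
    · rcases Nat.eq_zero_or_pos s with rfl | hs0
      · exact hz _ h.fac
      · by_cases hs3 : u + s ≤ u'
        · have hit := h.iter (s := s) hs0 hs3
          rw [hit]
          exact hout _ (by omega) (by omega)
        · exfalso
          refine hh.2 (u' - u + 1) (per T2 σ2 e) (by omega) (by omega) hs1 le_rfl ?_
          show sa T2 σ2 e (u' - u + 1) = sa T2 σ2 e (per T2 σ2 e)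
          rw [h.sa_end, sa_per, h.src]
    · rfl

end win

/-- **A window of a strand as one class of the contracted world.** The weight vanishes on faces
which meet the contracted set and at the times of the strand outside the window. -/
theorem window_class [Fintype D] (hP : T2.Planar) (hC : Cap T T2 π z σ σ2 c) (hb : T.Bi σ o)
    (hc : σ (T.src o) = c) {al be B : ℕ} (hab : al < be)
    (h1 : ∃ n < al, Meets T π z ((T.st σ)^[n] o))
    (h2 : ∃ n, be ≤ n ∧ n < B ∧ Meets T π z ((T.st σ)^[n] o))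
    (h3 : ∀ n, al ≤ n → n < be → ¬ Meets T π z ((T.st σ)^[n] o)) {Θ : D → ℂ}
    (hz : ∀ f, Meets T π z f → Θ f = 0)
    (hout : ∀ n < B, (n < al ∨ be ≤ n) → Θ ((T.st σ)^[n] o) = 0)
    (hloc : ∀ n, al ≤ n → n < be → Θ ((T.st σ)^[n] o) ≠ 0 → T.Mi σ ((T.st σ)^[n] o) →
      DisjOn T σ o al be n → DisjOn T σ o 0 B n) :
    ∃ e, T2.Mi σ2 e ∧ sideSum T σ o al be Θ = T2.cls σ2 e Θ := by
  obtain ⟨u, u', a1, a2, a3, a4, a5, a6⟩ :=
    exists_window (P := fun n => Meets T π z ((T.st σ)^[n] o)) h1 h2 h3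
  have hstep : T.st σ ((T.st σ)^[u] o) = (T.st σ)^[u + 1] o := by
    rw [iterate_succ', comp_apply]
  obtain ⟨e, e1, e2, e3, e4⟩ := hC.prev ((T.bi_iter u).2 hb)
    (by rw [T.col_src_iter σ, hc]) a4 (by rw [hstep]; exact a6 (u + 1) (by omega) (by omega))
  have hW : Win T T2 π z σ σ2 c o e u u' :=
    ⟨hC, hb, hc, by omega, e1, e2, by rw [e3, hstep], e4, a5, a6⟩
  exact ⟨e, e1, hW.cls_eq hP a1 hab.le a2 a3 hz hout hloc⟩

/-- The square of the value of the window is at most the total energy of the contracted world. -/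
theorem window_le [Fintype D] (hP : T2.Planar) (hC : Cap T T2 π z σ σ2 c) (hb : T.Bi σ o)
    (hc : σ (T.src o) = c) {al be B : ℕ} (hab : al < be)
    (h1 : ∃ n < al, Meets T π z ((T.st σ)^[n] o))
    (h2 : ∃ n, be ≤ n ∧ n < B ∧ Meets T π z ((T.st σ)^[n] o))
    (h3 : ∀ n, al ≤ n → n < be → ¬ Meets T π z ((T.st σ)^[n] o)) {Θ : D → ℂ}
    (hz : ∀ f, Meets T π z f → Θ f = 0)
    (hout : ∀ n < B, (n < al ∨ be ≤ n) → Θ ((T.st σ)^[n] o) = 0)
    (hloc : ∀ n, al ≤ n → n < be → Θ ((T.st σ)^[n] o) ≠ 0 → T.Mi σ ((T.st σ)^[n] o) →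
      DisjOn T σ o al be n → DisjOn T σ o 0 B n) :
    ‖sideSum T σ o al be Θ‖ ^ 2 ≤ H203.tot T2 σ2 Θ := by
  obtain ⟨e, -, he⟩ := window_class hP hC hb hc hab h1 h2 h3 hz hout hloc
  rw [he]
  exact T2.cls_le σ2 e Θ

end Vale.Agent.P148.R2.H488
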