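import Vale.Agent.P148.R2.H565.Loc8
import Vale.Agent.P148.R2.H488.N4a
import Vale.Agent.P148.R2.H953.Tool2
import Vale.Agent.P148.R2.H910.Om0

/-!
# The value of a cell of a ring of tubes is a class of a contracted world
-/

namespace Vale.Agent.P148.R2.H488

open Function Vale.Agent.P148.R2.H258 Vale.Agent.P148.R2.H871 Vale.Agent.P148.R2.H565

variable {V V2 D : Type*} {T : Tri V D} {T2 : Tri V2 D} {π : V → V2} {z : V2} {σ : V → Bool}
  {σ2 : V2 → Bool} {c : Bool}

section times

variable {K : ℕ} {d : ℕ → D} {N : ℕ → D → ZMod 2} {t : ℕ → ℕ}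

theorem times_lt (ht : Times T σ K d N t) {j k : ℕ} (hjk : j < k) (hk : k ≤ K) : t j < t k := by
  have h1 := ht.inc j (by omega)
  have h2 := ht.mono (j := j + 1) (k := k) (by omega) hk
  omega

/-- The piece of a time. -/
theorem times_piece (ht : Times T σ K d N t) {a b n : ℕ} (hab : a ≤ b) (hb : b ≤ K)
    (h1 : t a ≤ n)
    (h2 : n < t b) : ∃ j, a ≤ j ∧ j < b ∧ t j ≤ n ∧ n < t (j + 1) := by
  obtain ⟨j, hj, hj1, hj2⟩ := ht.loc h2
  refine ⟨j, ?_, hj, hj1, hj2⟩
  by_contra hc
  push Not at hc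
  have : t (j + 1) ≤ t a := ht.mono hc (by omega)
  omega

end times

variable {K : ℕ} {d : ℕ → D} {P Q X : ℕ → Set V} {ω : V}

/-- **The value of a cell as a class of the contracted world.** The weight `Θ` vanishes on faces
which meet the contracted set and on faces with a corner in a box other than the three middle ones
of the five boxes `m, …, m + 4`, which are off the contracted set. -/
theorem ring_cell_class [Fintype D] (hPl : T.Planar) (hP2 : T2.Planar)
    (hC : Cap T T2 π z σ σ2 c) (h : Ring T σ c K d P Q X ω) {g₀ : D} (hg : T.src g₀ = ω)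
    (hor : ∀ p q N, Tube T σ (d 0) (d 1) p q → (∀ f ∈ gam T (d 0) (d 1) p q, T.src f ∈ X 0) →
      T.Pot (gam T (d 0) (d 1) p q) N → N (d 0) = N g₀ + 1)
    {m : ℕ} (hm : 1 ≤ m) (hmK : m + 6 ≤ K)
    (near : ∀ i, m ≤ i → i < m + 5 → ∀ v ∈ X i, π v ≠ z)
    (far1 : ∃ i < m, π (T.src (d i)) = z)
    (far2 : ∃ i, m + 5 ≤ i ∧ i < K ∧ π (T.src (d i)) = z) {Θ : D → ℂ}
    (hz : ∀ f, Meets T π z f → Θ f = 0)
    (hcell : ∀ i < K, (i < m + 1 ∨ m + 4 ≤ i) → ∀ f, Θ f ≠ 0 → T.src f ∉ X i)
    {n : ℕ} (hn2 : n < per T σ (d m)) (hit : (T.st σ)^[n] (d m) = d (m + 5)) :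
    ∃ e, T2.Mi σ2 e ∧ seg T σ (d m) n Θ = T2.cls σ2 e Θ := by
  classical
  obtain ⟨p, q, N, hR, h0, h1, -, hΓ⟩ := h.exists_rchain hPl hg hor
  obtain ⟨t, ht⟩ := hR.toChain0.exists_times
  have hper : per T σ (d m) = per T σ (d 0) := by rw [← ht.hit m (by omega), per_iter]
  have hm0 : 0 < t m := by
    have := times_lt ht (show 0 < m by omega) (by omega)
    omega
  have hm5 : t m < t (m + 5) := times_lt ht (by omega) (by omega)
  have hn' : n = t (m + 5) - t m := by
    have e1 : (T.st σ)^[t (m + 5) - t m] (d m) = d (m + 5) := by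
      rw [← ht.hit m (by omega), ← iterate_add_apply, Nat.sub_add_cancel hm5.le,
        ht.hit _ (by omega)]
    have h5 := ht.le (m + 5) (by omega)
    exact (iterate_eq_iterate_iff_of_lt_minimalPeriod hn2
      (by show t (m + 5) - t m < per T σ (d m); omega)).1 (hit.trans e1.symm)
  have hseg : seg T σ (d m) n Θ = sideSum T σ (d 0) (t m) (t (m + 5)) Θ := by
    rw [hn', sideSum_eq_seg hm5.le (ht.hit m (by omega))]
  have hseen : ∀ j < K, ∀ i, t j ≤ i → i < t (j + 1) → T.src ((T.st σ)^[i] (d 0)) ∈ X j ∧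
      T.tgt ((T.st σ)^[i] (d 0)) ∈ X j ∧ T.apex ((T.st σ)^[i] (d 0)) ∈ X j := fun j hj i a b =>
    hR.toChain0.seen ht hj (h.out j hj) (h.conn j hj) (hΓ j hj) hg (h0 j hj) (h1 j hj) a b
  rw [hseg]
  refine window_class (B := t K) hP2 hC ?_ ?_ hm5 ?_ ?_ ?_ hz ?_ ?_
  · -- bichromatic
    exact (hR.tube 0 (by omega)).bi
  · exact h.colP 0 (by omega) _ (h.s1 0 (by omega))
  · obtain ⟨i, hi, hiz⟩ := far1
    refine ⟨t i, times_lt ht hi (by omega), Or.inl ?_⟩
    rw [ht.hit i (by omega)]
    exact hiz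
  · obtain ⟨i, hi, hiK, hiz⟩ := far2
    refine ⟨t i, ht.mono hi hiK.le, times_lt ht hiK le_rfl, Or.inl ?_⟩
    rw [ht.hit i hiK.le]
    exact hiz
  · intro i hi1 hi2
    obtain ⟨j, hj1, hj2, hj3, hj4⟩ := times_piece ht (b := m + 5) (by omega) (by omega) hi1 hi2
    obtain ⟨a1, a2, a3⟩ := hseen j (by omega) i hj3 hj4
    exact not_meets.2 ⟨near j hj1 hj2 _ a1, near j hj1 hj2 _ a2, near j hj1 hj2 _ a3⟩
  · intro i hi1 hi2
    by_contra hc
    obtain ⟨j, hj1, hj2, hj3, hj4⟩ := times_piece ht (a := 0) (Nat.zero_le _) le_rfl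
      (by rw [ht.t0]; exact Nat.zero_le _) hi1
    refine hcell j hj2 ?_ _ hc (hseen j hj2 i hj3 hj4).1
    rcases hi2 with hi2 | hi2
    · left
      by_contra hcc
      push Not at hcc
      have := ht.mono (j := m) (k := j) (by omega) hj2.le
      omega
    · right
      by_contra hcc
      push Not at hcc
      have := ht.mono (j := j + 1) (k := m + 5) (by omega) (by omega)
      omega
  · intro i hi1 hi2 hi3 _ hi4
    obtain ⟨j, hj1, hj2, hj3, hj4⟩ := times_piece ht (b := m + 5) (by omega) (by omega) hi1 hi2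
    have hj5 : m + 1 ≤ j ∧ j < m + 4 := by
      by_contra hc
      exact hcell j (by omega) (by omega) _ hi3 (hseen j (by omega) i hj3 hj4).1
    rw [hR.local ht (k := j) (by omega) hj3 hj4 le_rfl]
    intro x y hx1 hx2 hy1 hy2
    refine hi4 x y ?_ hx2 hy1 ?_
    · have := ht.mono (j := m) (k := j - 1) (by omega) (by omega)
      have h5 : t (j - 1) ≤ x := le_trans (le_max_right _ _) hx1
      omega
    · have h5 : y ≤ t (min K (j + 2)) := hy2.trans (min_le_right _ _)
      rw [min_eq_right (by omega)] at h5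
      have := ht.mono (j := j + 2) (k := m + 5) (by omega) (by omega)
      omega

/-- The square of the value of a cell is at most the total energy of the contracted world. -/
theorem ring_cell_le [Fintype D] (hPl : T.Planar) (hP2 : T2.Planar)
    (hC : Cap T T2 π z σ σ2 c) (h : Ring T σ c K d P Q X ω) {g₀ : D} (hg : T.src g₀ = ω)
    (hor : ∀ p q N, Tube T σ (d 0) (d 1) p q → (∀ f ∈ gam T (d 0) (d 1) p q, T.src f ∈ X 0) →
      T.Pot (gam T (d 0) (d 1) p q) N → N (d 0) = N g₀ + 1)
    {m : ℕ} (hm : 1 ≤ m) (hmK : m + 6 ≤ K)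
    (near : ∀ i, m ≤ i → i < m + 5 → ∀ v ∈ X i, π v ≠ z)
    (far1 : ∃ i < m, π (T.src (d i)) = z)
    (far2 : ∃ i, m + 5 ≤ i ∧ i < K ∧ π (T.src (d i)) = z) {Θ : D → ℂ}
    (hz : ∀ f, Meets T π z f → Θ f = 0)
    (hcell : ∀ i < K, (i < m + 1 ∨ m + 4 ≤ i) → ∀ f, Θ f ≠ 0 → T.src f ∉ X i)
    {n : ℕ} (hn2 : n < per T σ (d m)) (hit : (T.st σ)^[n] (d m) = d (m + 5)) :
    ‖seg T σ (d m) n Θ‖ ^ 2 ≤ H203.tot T2 σ2 Θ := by
  obtain ⟨e, -, he⟩ := ring_cell_class hPl hP2 hC h hg hor hm hmK near far1 far2 hz hcell hn2 hit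
  rw [he]
  exact T2.cls_le σ2 e Θ

/-! ### averages -/

open Vale.Agent.P148.R2.H953 in
/-- Colours at distinct points are independent and fair. -/
theorem ex_comp_inj {W : Type*} [Fintype V] [Fintype W] {j : W → V} (hj : Injective j)
    (F : (W → Bool) → ℝ) : ex (fun s : V → Bool => F (fun w => s (j w))) = ex F := by
  classical
  let R := {v // v ∉ Set.range j}
  let e1 : W ⊕ R ≃ V := ((Equiv.ofInjective j hj).sumCongr (Equiv.refl R)).trans
    (Equiv.Set.sumCompl (Set.range j))
  have he : ∀ w, e1 (Sum.inl w) = j w := fun w => rfl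
  let e2 : (V → Bool) ≃ (W → Bool) × (R → Bool) :=
    (Equiv.arrowCongr e1.symm (Equiv.refl Bool)).trans (Equiv.sumArrowEquivProdArrow W R Bool)
  have h2 : ∀ s : V → Bool, (e2 s).1 = fun w => s (j w) := fun s => rfl
  have hcard : Fintype.card V = Fintype.card W + Fintype.card R := by
    rw [← Fintype.card_sum]
    exact (Fintype.card_congr e1).symm
  unfold ex
  have h3 : ∑ s : V → Bool, F (fun w => s (j w)) = ∑ x : (W → Bool) × (R → Bool), F x.1 := by
    rw [← Equiv.sum_comp e2]
    rfl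
  rw [h3, Fintype.sum_prod_type]
  simp only [Finset.sum_const, Finset.card_univ, Fintype.card_fun, Fintype.card_bool, nsmul_eq_mul]
  rw [← Finset.mul_sum, hcard, pow_add]
  push_cast
  have : (0 : ℝ) < 2 ^ Fintype.card R := by positivity
  field_simp

open Vale.Agent.P148.R2.H953 in
/-- Mean energy of the contracted world: the vertex `z` has the fixed colour `c`, the other
colours are fair. -/
theorem ex_tot_frozen [Fintype V] [Fintype V2] [Fintype D] (hP : T2.Planar) {τ : ℂ}
    (hτ : τ ^ 2 + τ + 1 = 0) {Θ : D → ℂ} (hr : ∀ d, Θ (T2.nxt d) = τ ^ 2 * Θ d)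
    (hg : ∀ d, ¬ T2.Good d → Θ d = 0) (hsur : Surjective π) {R : (V → Bool) → V2 → Bool}
    (hR : ∀ s v, π v ≠ z → R s (π v) = s v) (hRz : ∀ s, R s z = c) :
    ex (fun s : V → Bool => H203.tot T2 (R s) Θ) = (1 / 4) * ∑ d, ‖Θ d‖ ^ 2 := by
  classical
  obtain ⟨j, hj⟩ := hsur.hasRightInverse
  have hji : Injective j := hj.injective
  have hRj : ∀ s w, w ≠ z → R s w = s (j w) := by
    intro s w hw
    have := hR s (j w) (by rw [hj w]; exact hw)
    rwa [hj w] at this
  -- the fair mean
  have h1 : ex (fun s : V2 → Bool => H203.tot T2 s Θ) = (1 / 4) * ∑ d, ‖Θ d‖ ^ 2 := by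
    unfold ex
    rw [H203.sum_tot T2 hP hτ hr hg]
    have : (0 : ℝ) < 2 ^ Fintype.card V2 := by positivity
    field_simp
  rw [← h1, ← ex_comp_inj (V := V) hji]
  set v0 := j z with hv0
  have hcase : ∀ s : V → Bool, H203.tot T2 (fun w => s (j w)) Θ =
      (if s v0 = c then (1 : ℝ) else 0) * H203.tot T2 (R s) Θ +
      (if s v0 = c then (0 : ℝ) else 1) * H203.tot T2 (R (fun v => !s v)) Θ := by
    intro s
    by_cases hs : s v0 = c
    · have : (fun w => s (j w)) = R s := by
        funext w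
        by_cases hw : w = z
        · rw [hw, hRz, ← hs]
        · exact (hRj s w hw).symm
      rw [this]; simp [hs]
    · have : (fun w => s (j w)) = H910.neg (R (fun v => !s v)) := by
        funext w
        unfold H910.neg
        by_cases hw : w = z
        · rw [hw, hRz, ← hv0]
          revert hs
          cases s v0 <;> cases c <;> simp
        · rw [hRj _ w hw]; simp
      rw [this, H910.tot_neg]; simp [hs]
  have hind : ex (fun s : V → Bool => (if s v0 = c then (1 : ℝ) else 0) * H203.tot T2 (R s) Θ) =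
      ex (fun s : V → Bool => if s v0 = c then (1 : ℝ) else 0) *
        ex (fun s : V → Bool => H203.tot T2 (R s) Θ) := by
    refine ex_mul_of_disjoint (S := {v0}) (T := {v0}ᶜ) disjoint_compl_right ?_ ?_
    · intro s r hsr
      have := hsr v0 rfl
      simp only [this]
    · intro s r hsr
      have : R r = R s := by
        funext w
        by_cases hw : w = z
        · rw [hw, hRz, hRz]
        · rw [hRj r w hw, hRj s w hw]
          apply hsr
          intro hh
          exact hw (hji hh)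
      simp only [this]
  have hhalf : ex (fun s : V → Bool => if s v0 = c then (1 : ℝ) else 0) = 1 / 2 := by
    have e0 : ∀ b : Bool, (if (!b) = c then (1 : ℝ) else 0) = if b = c then (0 : ℝ) else 1 := by
      intro b; cases b <;> cases c <;> simp
    have e1 : ex (fun s : V → Bool => if s v0 = c then (1 : ℝ) else 0) =
        ex (fun s : V → Bool => if s v0 = c then (0 : ℝ) else 1) := by
      rw [← ex_not]
      exact ex_congr fun s => e0 (s v0)
    have e2 : ex (fun s : V → Bool => if s v0 = c then (1 : ℝ) else 0) +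
        ex (fun s : V → Bool => if s v0 = c then (0 : ℝ) else 1) = 1 := by
      have e3 : ∀ s : V → Bool, (if s v0 = c then (1 : ℝ) else 0) +
          (if s v0 = c then (0 : ℝ) else 1) = 1 := by
        intro s
        split_ifs <;> norm_num
      rw [← ex_add, ex_congr e3, ex_const]
    linarith
  have hsec : ex (fun s : V → Bool => (if s v0 = c then (0 : ℝ) else 1) *
      H203.tot T2 (R (fun v => !s v)) Θ) =
      ex (fun s : V → Bool => (if s v0 = c then (1 : ℝ) else 0) * H203.tot T2 (R s) Θ) := by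
    rw [← ex_not]
    apply ex_congr
    intro s
    have e0 : ∀ b : Bool, (if (!b) = c then (0 : ℝ) else 1) = if b = c then (1 : ℝ) else 0 := by
      intro b; cases b <;> cases c <;> simp
    have : (fun v => !!s v) = s := by funext v; simp
    rw [this, e0]
  rw [ex_congr hcase, ex_add, hsec, hind, hhalf]
  ring

end Vale.Agent.P148.R2.H488
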