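import Vale.Agent.P148.R2.H488.N4b
import Vale.Agent.P148.R2.H488.Cw
import Vale.Agent.P148.R2.H565.Loc12
import Vale.Agent.P148.R2.H566.World
import Vale.Agent.P148.R2.H871.CW3

/-!
# The world of a window

All sites off an open convex set `K` (which contains no vertex of the hull) are contracted to one
vertex. The mean energy of this world for the weight of one cell.
-/

set_option linter.unusedSectionVars false

open Set Relation Metric Function
open scoped ENNReal

namespace Vale.Agent.P148.R2.H488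

open Vale.Agent.P148.R2.H258 Vale.Agent.P148.R2.H871 Vale.Agent.P148.R2.H565
open Vale.Agent.P148.R2.H184 (Dt cc LF EQ dt Faith pc rt)
open Vale.Agent.P148.R2.H592 (HullTri nbr nbr_symm ConnIn Fc Fib idmap fib_id tail head vc cmap
  cmap_of_free cmap_of_mem mem_of_cmap eq_of_cmap)
open Vale.Agent.P148.R2.H959 (Jn escape)
open Vale.Agent.P148.R2.H566 (W0)

section world

variable {X : Set ℂ} {b : ZMod 3 → ℂ} (h : HullTri X b) {K : Set ℂ}

include h in
/-- The sites off a convex open set are connected. -/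
theorem connIn_compl (hK : Convex ℝ K) (hKo : IsOpen K) (hb : ∀ j, b j ∉ K) :
    ConnIn X (X \ K) :=
  ⟨sdiff_subset, fun _ hx _ hy =>
    (escape h hK hKo hb hx.1 hx.2).trans (escape h hK hKo hb hy.1 hy.2).symm⟩

/-- The world of the window `K`. -/
noncomputable def kw (hK : Convex ℝ K) (hKo : IsOpen K) (hb : ∀ j, b j ∉ K) : W0 where
  X := X
  b := b
  hull := h
  B := X \ K
  conn := connIn_compl h hK hKo hb
  ne := ⟨b 0, h.mem 0, hb 0⟩

/-- The colouring of the world of the window: the contracted vertex has the colour `c`. -/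
def kcol (X K : Set ℂ) (s : ℂ → Bool) (c : Bool) : H592.CV X (fun _ : Unit => X \ K) → Bool :=
  Sum.elim (fun _ => c) (fun v => s v.1)

variable (hK : Convex ℝ K) (hKo : IsOpen K) (hb : ∀ j, b j ∉ K)

theorem pwU {O : Unit → Set ℂ} : Pairwise fun i j => Disjoint (O i) (O j) :=
  fun _ _ hij => absurd (Subsingleton.elim _ _) hij

theorem kw_pi_out {x : ℂ} (hx : x ∈ X) (hxK : x ∉ K) :
    (kw h hK hKo hb).π x = (kw h hK hKo hb).O := cmap_of_mem pwU (j := ()) ⟨hx, hxK⟩

theorem kw_pi_in {x : ℂ} (hx : x ∈ X) (hxK : x ∈ K) :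
    (kw h hK hKo hb).π x = Sum.inr ⟨x, hx, fun _ hh => hh.2 hxK⟩ :=
  cmap_of_free hx fun _ hh => hh.2 hxK

theorem kw_pi_ne {x : ℂ} (hx : x ∈ X) :
    (kw h hK hKo hb).π x ≠ (kw h hK hKo hb).O ↔ x ∈ K := by
  constructor
  · intro h1
    by_contra h2
    exact h1 (kw_pi_out h hK hKo hb hx h2)
  · intro h1 h2
    rw [kw_pi_in h hK hKo hb hx h1] at h2
    exact absurd h2 (by simp [W0.O])

theorem kw_cap (x₀ : X) (s : ℂ → Bool) (c : Bool) :
    Cap (HT h x₀) (kw h hK hKo hb).T (fun v : X => (kw h hK hKo hb).π v.1) (kw h hK hKo hb).O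
      (fun v : X => s v.1) (kcol X K s c) c where
  contr := contr_tri258 h _ _ fun x hx => by
    show (kw h hK hKo hb).π x = (kw h hK hKo hb).π (idmap X x₀ x).1
    rw [H565.idmap_val x₀ hx]
  inj u v hu huv := by
    have hu' := (kw_pi_ne h hK hKo hb u.2).1 hu
    have h1 := kw_pi_in h hK hKo hb u.2 hu'
    have h2 : (kw h hK hKo hb).π v.1 = Sum.inr ⟨u.1, u.2, fun _ hh => hh.2 hu'⟩ := by
      rw [← h1]; exact huv.symm
    exact Subtype.ext (eq_of_cmap h2).symm
  col v hv := by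
    have hv' := (kw_pi_ne h hK hKo hb v.2).1 hv
    show kcol X K s c ((kw h hK hKo hb).π v.1) = s v.1
    rw [kw_pi_in h hK hKo hb v.2 hv']
    rfl
  colz := rfl

theorem kw_faith : Faith X K (kw h hK hKo hb).π :=
  (kw h hK hKo hb).faith fun _ _ hxK hh => hh.2 hxK

theorem kw_src (q : Fc X b × ZMod 3) :
    (kw h hK hKo hb).T.src q = (kw h hK hKo hb).π (tail q) := rfl

theorem kw_tgt (q : Fc X b × ZMod 3) :
    (kw h hK hKo hb).T.tgt q = (kw h hK hKo hb).π (head q) :=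
  H184.tgt_eq h _ _ q

theorem kw_apex (q : Fc X b × ZMod 3) :
    (kw h hK hKo hb).T.apex q = (kw h hK hKo hb).π (vc q.1 q.2) :=
  H184.apex_eq h _ _ q

/-- The faces with a corner in `K` are small Delaunay faces. -/
def SmallF (X : Set ℂ) (b : ZMod 3 → ℂ) (K : Set ℂ) (s : ℝ) : Prop :=
  ∀ q : Fc X b × ZMod 3, tail q ∈ K → LF X (closedBall (tail q) s) (dt q)

variable {s : ℝ} {A : Set ℂ} {Θ : Dt → ℂ}

theorem tail_th (q : Fc X b × ZMod 3) : tail q = (dt q).1 := rfl

/-- A face with a corner in `K` is small. -/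
theorem SmallF.dist_le {q : Fc X b × ZMod 3} (hF : SmallF X b K s) (hs : 0 ≤ s)
    (hq : tail q ∈ K ∨ head q ∈ K ∨ vc q.1 q.2 ∈ K) :
    LF X univ (dt q) ∧ dist (cc (dt q)) (dt q).1 ≤ s := by
  have key : ∀ q : Fc X b × ZMod 3, tail q ∈ K → LF X univ (dt q) ∧
      dist (cc (dt q)) (dt q).1 ≤ s := by
    intro q hq
    have h1 := hF q hq
    refine ⟨h1.mono (subset_univ _), ?_⟩
    have h2 := h1.2.2.1
    rcases (dist_nonneg (x := cc (dt q)) (y := (dt q).1)).eq_or_lt with h3 | h3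
    · rw [← h3]; exact hs
    · have h4 : cc (dt q) ∈ closedBall (tail q) s := h2 (mem_closedBall_self dist_nonneg)
      exact mem_closedBall.1 h4
  rcases hq with h1 | h1 | h1
  · exact key q h1
  · have h2 := key (q.1, q.2 + 1) (by rw [HullTri.tail_next]; exact h1)
    rw [H184.dt_next] at h2
    obtain ⟨a1, a2⟩ := h2
    have a3 := H184.LF_rt.1 a1
    refine ⟨a3, ?_⟩
    rw [H184.cc_rt a3.2.1.ne'] at a2
    have a4 : dist (cc (dt q)) (rt (dt q)).1 = dist (cc (dt q)) (dt q).1 :=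
      (H184.dist_cc1 a3.2.1.ne').symm
    rwa [a4] at a2
  · have h2 := key (q.1, q.2 + 2) (by rw [HullTri.tail_next2]; exact h1)
    have e : dt (q.1, q.2 + 2) = rt (rt (dt q)) := by
      rw [← H184.dt_next, ← H184.dt_next, add_assoc]
      rfl
    rw [e] at h2
    obtain ⟨a1, a2⟩ := h2
    have a3 := H184.LF_rt.1 (H184.LF_rt.1 a1)
    have a5 := H184.LF_rt.1 a1
    refine ⟨a3, ?_⟩
    rw [H184.cc_rt a5.2.1.ne', H184.cc_rt a3.2.1.ne'] at a2
    have a4 : dist (cc (dt q)) (rt (rt (dt q))).1 = dist (cc (dt q)) (dt q).1 :=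
      (H184.dist_cc2 a3.2.1.ne').symm
    rwa [a4] at a2

theorem kw_good_of {q : Fc X b × ZMod 3} (hl : LF X univ (dt q)) (h1 : tail q ∈ K)
    (h2 : head q ∈ K) (h3 : vc q.1 q.2 ∈ K) : (kw h hK hKo hb).T.Good q := by
  obtain ⟨n1, n2, n3⟩ := hl.ne
  have hF := kw_faith h hK hKo hb
  refine ⟨?_, ?_, ?_⟩
  · rw [kw_src, kw_tgt]
    exact fun he => n1 (hF _ hl.1.1 h1 _ hl.1.2.1 he)
  · rw [kw_tgt, kw_apex]
    exact fun he => n2 (hF _ hl.1.2.1 h2 _ hl.1.2.2 he)
  · rw [kw_apex, kw_src]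
    exact fun he => n3 (hF _ hl.1.2.2 h3 _ hl.1.1 he)

/-- A face which carries weight is a small Delaunay face with circumcentre in `A`. -/
theorem kw_th_ne (hF : SmallF X b K s) (hs : 0 ≤ s) {q : Fc X b × ZMod 3}
    (hq : (kw h hK hKo hb).th (cw A Θ) q ≠ 0) :
    LF X univ (dt q) ∧ dist (cc (dt q)) (dt q).1 ≤ s ∧ cc (dt q) ∈ A ∧
      (kw h hK hKo hb).th (cw A Θ) q = Θ (dt q) := by
  classical
  unfold W0.th H203.wt at hq ⊢
  by_cases hg : (kw h hK hKo hb).T.Good q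
  · have hg' : ((kw h hK hKo hb).hull.tri258 (kw h hK hKo hb).π (kw h hK hKo hb).fib).Good q := hg
    rw [if_pos hg'] at hq ⊢
    obtain ⟨a1, a2, a3⟩ := cw_ne hq
    have hex : tail q ∈ K ∨ head q ∈ K ∨ vc q.1 q.2 ∈ K := by
      by_contra hc
      push Not at hc
      apply hg.1
      have hn := h.nbr_th q
      rw [kw_src, kw_tgt, kw_pi_out h hK hKo hb hn.1 hc.1, kw_pi_out h hK hKo hb hn.2.1 hc.2.1]
    obtain ⟨b1, b2⟩ := hF.dist_le hs hex
    exact ⟨b1, b2, a2, cw_of a1 a2⟩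
  · have hg' : ¬ ((kw h hK hKo hb).hull.tri258 (kw h hK hKo hb).π
      (kw h hK hKo hb).fib).Good q := hg
    rw [if_neg hg'] at hq
    exact absurd rfl hq

theorem kw_not_meets (hF : SmallF X b K s) (hs : 0 ≤ s) (hA : ∀ z ∈ A, closedBall z s ⊆ K)
    (x₀ : X) {q : Fc X b × ZMod 3} (hq : (kw h hK hKo hb).th (cw A Θ) q ≠ 0) :
    ¬ Meets (HT h x₀) (fun v : X => (kw h hK hKo hb).π v.1) (kw h hK hKo hb).O q := by
  obtain ⟨a1, a2, a3, -⟩ := kw_th_ne h hK hKo hb hF hs hq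
  have a4 : dist (cc (dt q)) (dt q).2.1 ≤ s := by rw [← H184.dist_cc1 a1.2.1.ne']; exact a2
  have a5 : dist (cc (dt q)) (dt q).2.2 ≤ s := by rw [← H184.dist_cc2 a1.2.1.ne']; exact a2
  have k1 : tail q ∈ K := hA _ a3 (by rw [mem_closedBall, dist_comm]; exact a2)
  have k2 : head q ∈ K := hA _ a3 (by rw [mem_closedBall, dist_comm]; exact a4)
  have k3 : vc q.1 q.2 ∈ K := hA _ a3 (by rw [mem_closedBall, dist_comm]; exact a5)
  refine not_meets.2 ⟨?_, ?_, ?_⟩
  · refine (kw_pi_ne h hK hKo hb ((HT h x₀).src q).2).2 ?_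
    rw [HT_src]; exact k1
  · refine (kw_pi_ne h hK hKo hb ((HT h x₀).tgt q).2).2 ?_
    rw [HT_tgt]; exact k2
  · refine (kw_pi_ne h hK hKo hb ((HT h x₀).apex q).2).2 ?_
    rw [HT_apex]; exact k3

/-- On the faces inside `K` the weight of the world is the weight. -/
theorem kw_th_of (hF : SmallF X b K s) (hs : 0 ≤ s) {q : Fc X b × ZMod 3} (h1 : tail q ∈ K)
    (h2 : head q ∈ K) (h3 : vc q.1 q.2 ∈ K) (Ψ : Dt → ℂ) :
    (kw h hK hKo hb).th Ψ q = Ψ (dt q) := by
  classical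
  have hg := kw_good_of h hK hKo hb (hF.dist_le hs (Or.inl h1)).1 h1 h2 h3
  unfold W0.th H203.wt
  exact if_pos hg

/-- The energy of the weight of the world. -/
theorem kw_energy (hF : SmallF X b K s) (hs : 0 ≤ s) {Q : Set ℂ}
    (hA : ∀ z ∈ A, closedBall z s ⊆ Q) (Θ : Dt → ℂ) :
    ENNReal.ofReal (∑ d, ‖(kw h hK hKo hb).th (cw A Θ) d‖ ^ 2) ≤ EQ X Q Θ := by
  classical
  unfold EQ
  let hD : Fintype (Fc X b × ZMod 3) := W0.instFintypeD (kw h hK hKo hb)
  have := H184.tsum_dt (Q := Q) h (F := fun d =>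
    if LF X Q d then ENNReal.ofReal (‖Θ d‖ ^ 2) else 0) (fun d hd => by
      by_contra hcon
      exact hd (if_neg hcon))
  rw [this, ENNReal.ofReal_sum_of_nonneg (fun _ _ => by positivity)]
  have key : ∀ q : Fc X b × ZMod 3,
      ENNReal.ofReal (‖(kw h hK hKo hb).th (cw A Θ) q‖ ^ 2) ≤
      if LF X Q (dt q) then ENNReal.ofReal (‖Θ (dt q)‖ ^ 2) else 0 := by
    intro q
    by_cases hq : (kw h hK hKo hb).th (cw A Θ) q = 0
    · rw [hq]; simp
    · obtain ⟨a1, a2, a3, a4⟩ := kw_th_ne h hK hKo hb hF hs hq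
      rw [a4, if_pos]
      exact ⟨a1.1, a1.2.1, (closedBall_subset_closedBall a2).trans (hA _ a3), a1.2.2.2⟩
  exact Finset.sum_le_sum fun q _ => key q

open Vale.Agent.P148.R2.H953 in
/-- **The mean energy of the world of a window.** `V` colours all sites in `K`. -/
theorem kw_mean {V : Type*} [Fintype V] {e : V → ℂ} {ext : (V → Bool) → ℂ → Bool}
    (hsur : ∀ x ∈ X, x ∈ K → ∃ v, e v = x) (hext : ∀ t v, e v ∈ K → ext t (e v) = t v) (c : Bool)
    {τ : ℂ} (hτ : τ ^ 2 + τ + 1 = 0) {Ψ : Dt → ℂ} (hΨ : ∀ d, Ψ (rt d) = τ ^ 2 * Ψ d) :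
    ex (fun t : V → Bool => H203.tot (kw h hK hKo hb).T (kcol X K (ext t) c)
      ((kw h hK hKo hb).th Ψ)) = (1 / 4) * ∑ d, ‖(kw h hK hKo hb).th Ψ d‖ ^ 2 := by
  classical
  set w := kw h hK hKo hb with hw
  have h1 := ex_tot_frozen (V := Option V) (T2 := w.T) (z := w.O) (c := c)
    (π := fun o => o.elim w.O (fun v => w.π (e v)))
    (R := fun t => kcol X K (ext (fun v => t (some v))) c) w.planar hτ
    (Θ := w.th Ψ) (H203.wt_rot _ _ _ hΨ) (H203.wt_good _ _ _ Ψ) ?_ ?_ ?_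
  · rw [← h1]
    exact (ex_comp_inj (V := Option V) (j := some) (Option.some_injective V)
      (fun t => H203.tot w.T (kcol X K (ext t) c) (w.th Ψ))).symm
  · rintro (u | x)
    · exact ⟨none, rfl⟩
    · have hxK : x.1 ∈ K := by
        by_contra hc
        exact x.2.2 () ⟨x.2.1, hc⟩
      obtain ⟨v, hv⟩ := hsur x.1 x.2.1 hxK
      refine ⟨some v, ?_⟩
      show w.π (e v) = Sum.inr x
      rw [hv]
      exact H592.cmap_free x
  · rintro t (_ | v) hv
    · exact absurd rfl hv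
    · have hX : e v ∈ X := by
        by_contra hc
        apply hv
        show cmap X (fun _ : Unit => X \ K) (e v) = Sum.inl ()
        unfold cmap
        rw [dif_neg (fun hh => hc hh.choose_spec.1), dif_neg hc]
      have hK' := (kw_pi_ne h hK hKo hb hX).1 hv
      have h5 := kw_pi_in h hK hKo hb hX hK'
      exact (congrArg (kcol X K (ext (fun v => t (some v))) c) h5).trans (hext _ v hK')
  · intro t
    rfl

open Vale.Agent.P148.R2.H953 in
/-- The energy of the world of a window is a function of the colours in the window. -/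
theorem kw_on {V : Type*} {e : V → ℂ} {ext : (V → Bool) → ℂ → Bool}
    (hsur : ∀ x ∈ X, x ∈ K → ∃ v, e v = x) (hext : ∀ t v, e v ∈ K → ext t (e v) = t v) (c : Bool)
    (Φ : Fc X b × ZMod 3 → ℂ) :
    On {v | e v ∈ K} (fun t : V → Bool => H203.tot (kw h hK hKo hb).T (kcol X K (ext t) c)
      Φ) := by
  intro σ ρ hr
  have : kcol X K (ext ρ) c = kcol X K (ext σ) c := by
    funext x
    rcases x with u | x
    · rfl
    · have hxK : x.1 ∈ K := by
        by_contra hc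
        exact x.2.2 () ⟨x.2.1, hc⟩
      obtain ⟨v, hv⟩ := hsur x.1 x.2.1 hxK
      show ext ρ x.1 = ext σ x.1
      have hvK : e v ∈ K := by rw [hv]; exact hxK
      rw [← hv, hext _ _ hvK, hext _ _ hvK]
      exact hr v hvK
  simp only [this]

end world

end Vale.Agent.P148.R2.H488
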