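import Vale.Agent.P148.R2.H565.Loc10
import Vale.Agent.P148.R2.H504.Far
import Vale.Agent.P148.R2.H488.N4b
import Vale.Agent.P148.R2.H488.Cw

/-!
# Cells of a closed ring of tubes, in both orientations
-/

open Set Function

namespace Vale.Agent.P148.R2.H488

open Vale.Agent.P148.R2.H258 Vale.Agent.P148.R2.H871 Vale.Agent.P148.R2.H565

section ring

variable {V V2 D : Type*} {T : Tri V D} {T2 : Tri V2 D} {π : V → V2} {z : V2} {σ : V → Bool}
  {σ2 : V2 → Bool} {c : Bool} {K : ℕ} {d : ℕ → D} {P Q X : ℕ → Set V} {ω : V}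

/-- The value of a cell of a positively oriented closed ring, from the foot `J` on. -/
theorem cring_cell_le [Fintype D] (hPl : T.Planar) (hP2 : T2.Planar)
    (hC : Cap T T2 π z σ σ2 c) (h : CRing T σ c K d P Q X ω) {g₀ : D} (hg : T.src g₀ = ω)
    (hpos : ∀ k, Pos T σ (X k) g₀ (d k) (d (k + 1))) {J m : ℕ} (hm : 1 ≤ m) (hmK : m + 7 ≤ K)
    (near : ∀ i, m ≤ i → i < m + 5 → ∀ v ∈ X (J + i), π v ≠ z)
    (far1 : π (T.src (d J)) = z)
    (far2 : ∃ i, m + 5 ≤ i ∧ i + 1 < K ∧ π (T.src (d (J + i))) = z) {Θ : D → ℂ}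
    (hz : ∀ f, Meets T π z f → Θ f = 0)
    (hcell : ∀ i, i + 1 < K → (i < m + 1 ∨ m + 4 ≤ i) → ∀ f, Θ f ≠ 0 → T.src f ∉ X (J + i))
    {n : ℕ} (hn2 : n < per T σ (d (J + m)))
    (hit : (T.st σ)^[n] (d (J + m)) = d (J + (m + 5))) :
    ‖seg T σ (d (J + m)) n Θ‖ ^ 2 ≤ H203.tot T2 σ2 Θ := by
  obtain ⟨i, hi1, hi2, hi3⟩ := far2
  exact ring_cell_le hPl hP2 hC (h.ring J (K' := K - 1) (by omega)) hg (hpos J) hm (by omega)
    near ⟨0, by omega, far1⟩ ⟨i, hi1, by omega, hi3⟩ hz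
    (fun i hi hi' => hcell i (by omega) hi') hn2 hit

/-- The first passage from a foot to a later foot of a positively oriented closed ring passes all
feet in between. -/
theorem cring_pass [Finite D] (hPl : T.Planar) (h : CRing T σ c K d P Q X ω) {g₀ : D}
    (hg : T.src g₀ = ω) (hpos : ∀ k, Pos T σ (X k) g₀ (d k) (d (k + 1))) {J l n : ℕ} (hl : 0 < l)
    (hlK : l + 1 < K) (hit : (T.st σ)^[n] (d J) = d (J + l))
    (hmin : ∀ i, 0 < i → i < n → (T.st σ)^[i] (d J) ≠ d (J + l)) :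
    n < per T σ (d J) ∧ (∀ i < l, ∃ t < n, (T.st σ)^[t] (d J) = d (J + i)) ∧
      ∀ i < n, ∃ j < l, T.src ((T.st σ)^[i] (d J)) ∈ X (J + j) ∧
        T.tgt ((T.st σ)^[i] (d J)) ∈ X (J + j) ∧ T.apex ((T.st σ)^[i] (d J)) ∈ X (J + j) := by
  have hR := h.ring J (K' := K - 1) (by omega)
  obtain ⟨p, q, N, hRC, h0, h1, -, hΓ⟩ := hR.exists_rchain hPl hg (hpos J)
  obtain ⟨t, ht⟩ := hRC.toChain0.exists_times
  have hit2 : ∀ i, i ≤ K - 1 → (T.st σ)^[t i] (d J) = d (J + i) := fun i hi => ht.hit i hi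
  have hl0 : 0 < t l := by
    have := times_lt ht hl (by omega)
    omega
  have hper : t l < per T σ (d J) :=
    lt_of_lt_of_le (times_lt ht (show l < K - 1 by omega) le_rfl) (ht.le _ le_rfl)
  have hle : n ≤ t l := by
    by_contra hc
    push Not at hc
    exact hmin _ hl0 hc (hit2 l (by omega))
  have hnl : n = t l := by
    have e : (T.st σ)^[n] (d J) = (T.st σ)^[t l] (d J) := by rw [hit, hit2 l (by omega)]
    exact (iterate_eq_iterate_iff_of_lt_minimalPeriod (lt_of_le_of_lt hle hper) hper).1 e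
  refine ⟨by omega, fun i hi => ⟨t i, ?_, hit2 i (by omega)⟩, fun i hi => ?_⟩
  · rw [hnl]; exact times_lt ht hi (by omega)
  · obtain ⟨j, -, hj2, hj3, hj4⟩ := times_piece ht (a := 0) (b := l) (Nat.zero_le _) (by omega)
      (by rw [ht.t0]; exact Nat.zero_le _) (by omega : i < t l)
    exact ⟨j, hj2, hRC.toChain0.seen ht (by omega) (hR.out j (by omega))
      (hR.conn j (by omega)) (hΓ j (by omega)) hg (h0 j (by omega)) (h1 j (by omega)) hj3 hj4⟩

theorem ri_add (hK : 0 < K) (x : ℕ) : (ri K x + x) ≡ 0 [MOD K] := by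
  have h1 := Nat.mod_lt x hK
  have h2 := Nat.div_add_mod x K
  have h3 : ri K x + x = K * (x / K + 1) := by
    unfold ri
    rw [mul_add, mul_one]
    omega
  rw [h3]
  exact (Nat.modEq_zero_iff_dvd).2 (Dvd.intro _ rfl)

theorem ri_pos (hK : 0 < K) (x : ℕ) : 0 < ri K x := by
  have h1 := Nat.mod_lt x hK
  unfold ri
  omega

/-- Periodic families only depend on the residue. -/
theorem per_modEq {α : Type*} {f : ℕ → α} (hf : ∀ k, f (k + K) = f k) {a b : ℕ}
    (h : a ≡ b [MOD K]) : f a = f b := by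
  have key : ∀ n r, f (r + K * n) = f r := by
    intro n
    induction n with
    | zero => intro r; simp
    | succ n ih =>
      intro r
      rw [show r + K * (n + 1) = (r + K * n) + K by ring, hf, ih]
  have h1 : ∀ a, f a = f (a % K) := by
    intro a
    conv_lhs => rw [← Nat.mod_add_div a K]
    exact key _ _
  rw [h1 a, h1 b, h]

/-- The reversed index. -/
theorem ri_modEq (hK : 0 < K) {x y : ℕ} (h : y + x ≡ 0 [MOD K]) : ri K x ≡ y [MOD K] :=
  Nat.ModEq.add_right_cancel' x ((ri_add hK x).trans h.symm)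

theorem ri_sub_modEq (hK : 0 < K) {x y : ℕ} (h : y + 1 + x ≡ 0 [MOD K]) :
    ri K x - 1 ≡ y [MOD K] := by
  have h1 := ri_pos hK x
  apply Nat.ModEq.add_right_cancel' 1
  rw [Nat.sub_add_cancel h1]
  exact ri_modEq hK h

end ring

section geo

open Vale.Agent.P148.R2.N (ms nc gateC cellC gbox cell csq ms_pos)
open Vale.Agent.P148.R2.H959 (reg)

variable {M : ℕ}

theorem far_reg (hM : 0 < M) {k j : ℕ} (h1 : k + 8 ≤ j) (h2 : j + 8 ≤ k + nc M) :
    Disjoint (csq (cellC M k) (3 * ms M)) (reg M j) := by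
  have h0 := ms_pos hM
  have hn : 0 < nc M := by unfold nc; omega
  have hcm : ∀ i, cellC M (i % nc M) = cellC M i := fun i =>
    per_modEq (K := nc M) (f := cellC M) (fun k => N.cellC_add_nc M k) (Nat.mod_modEq _ _)
  have hnear : j % nc M ∉ H504.near (nc M) 7 (k % nc M) := by
    unfold H504.near
    rw [Finset.mem_filter]
    rintro ⟨-, t, ht, h3 | h3⟩
    · rw [Nat.mod_add_mod] at h3
      exact mod_ne (K := nc M) (a := k + t) (b := j) (by omega) (by omega) h3
    · rw [Nat.mod_add_mod] at h3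
      have h4 : (k + nc M) % nc M = k % nc M := Nat.add_mod_right _ _
      exact mod_ne (K := nc M) (a := j + t) (b := k + nc M) (by omega) (by omega)
        (h3.trans h4.symm)
  have h5 := H504.disjoint_csq hM (Nat.mod_lt _ hn) (Nat.mod_lt _ hn) hnear
    (R := 3 * ms M) (R' := 5 * ms M / 8) (by norm_num; linarith)
  rw [hcm, hcm] at h5
  exact h5.mono_right (H959.reg_subset_csq hM j)

/-- A face of the half-open cell `k` is not seen in a far region. -/
theorem hc_reg (hM : 0 < M) {k j : ℕ} {z w : ℂ} (hz : z ∈ hc M k) (hw : w ∈ reg M j)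
    (h : z ∈ csq w (ms M / 16)) (h1 : k + 2 ≤ j) (h2 : j + 2 ≤ k + nc M) : False := by
  have h4 : (k + nc M) % nc M = k % nc M := Nat.add_mod_right _ _
  rcases hc_cover hM hw h with h3 | h3 | h3
  · have h5 := hc_unique' hM hz h3
    have h6 : (j + (nc M - 1)) % nc M = (j - 1) % nc M := by
      rw [show j + (nc M - 1) = (j - 1) + nc M by omega, Nat.add_mod_right]
    rw [h6] at h5
    exact mod_ne (K := nc M) (a := k) (b := j - 1) (by omega) (by omega) h5
  · exact mod_ne (K := nc M) (a := k) (b := j) (by omega) (by omega) (hc_unique' hM hz h3)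
  · exact mod_ne (K := nc M) (a := k) (b := j + 1) (by omega) (by omega) (hc_unique' hM hz h3)

/-- The half-open cell is in the closed square around its centre. -/
theorem hc_sub {k : ℕ} {z : ℂ} (hz : z ∈ hc M k) {t : ℝ} (ht : ms M / 2 < t) :
    z ∈ csq (cellC M k) t := by
  obtain ⟨w, rfl⟩ := N.exists_eq_I_pow_mul (k / (2 * M + 1)) z
  obtain ⟨⟨a1, a2⟩, a3, a4⟩ := mem_hc.1 hz
  unfold cellC
  rw [N.csq_I_pow, N.mem_csq, abs_lt, abs_lt]
  refine ⟨⟨?_, ?_⟩, ?_, ?_⟩ <;> simp only <;> linarith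

/-- Small discs around points of the half-open cell. -/
theorem hc_ball_sub {k : ℕ} {z : ℂ} (hz : z ∈ hc M k) {s t : ℝ}
    (hs : ms M / 2 + s < t) : Metric.closedBall z s ⊆ csq (cellC M k) t := by
  intro w hw
  rw [Metric.mem_closedBall, dist_eq_norm] at hw
  have h1 := hc_sub hz (t := t - s) (by linarith)
  obtain ⟨h2, h3⟩ := h1
  have h4 := (Complex.abs_re_le_norm (w - z)).trans hw
  have h5 := (Complex.abs_im_le_norm (w - z)).trans hw
  rw [Complex.sub_re] at h4
  rw [Complex.sub_im] at h5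
  rw [abs_lt] at h2 h3
  rw [abs_le] at h4 h5
  rw [N.mem_csq, abs_lt, abs_lt]
  refine ⟨⟨?_, ?_⟩, ?_, ?_⟩ <;> linarith [h2.1, h2.2, h3.1, h3.2, h4.1, h4.2, h5.1, h5.2]

end geo

end Vale.Agent.P148.R2.H488
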