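import Vale.Agent.P148.R2.H565.Loc9
import Vale.Agent.P148.R2.H565.Vk
import Vale.Agent.P148.R2.H488.N4c
import Vale.Agent.P148.R2.H488.N4d

/-!
# The value of a cell of the comb ring is a class of the world of its window
-/

set_option linter.unusedSectionVars false

open Set Relation Metric Function
open scoped ENNReal

namespace Vale.Agent.P148.R2.H488

open Vale.Agent.P148.R2.H258 Vale.Agent.P148.R2.H871 Vale.Agent.P148.R2.H565
open Vale.Agent.P148.R2.H184 (Dt cc LF EQ dt Faith pc rt)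
open Vale.Agent.P148.R2.H592 (HullTri nbr nbr_symm ConnIn Fc Fib idmap fib_id tail head vc)
open Vale.Agent.P148.R2.H566 (W0)
open Vale.Agent.P148.R2.N (ms nc gateC cellC gbox cell csq ms_pos)
open Vale.Agent.P148.R2.H959 (reg)

section iter

variable {X : Set ℂ} {b : ZMod 3 → ℂ} (h : HullTri X b) {V : Type*} (π : ℂ → V) (hπ : Fib X π)
variable {Q : Set ℂ}

/-- An intrinsic piece is a part of a strand. -/
theorem iter_of_PP {σ : V → Bool} {a a' : Fc X b × ZMod 3} {n : ℕ} {f : ℕ → Dt}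
    (hp : PP X Q (pc π σ) (ed (dt a)) (ed (dt a')) n f) :
    (h.tri258 π hπ).Bi σ a ∧ (∀ i < n, f i = dt (((h.tri258 π hπ).st σ)^[i] a)) ∧
      ((h.tri258 π hπ).st σ)^[n] a = a' ∧
      ∀ i, 0 < i → i < n → ((h.tri258 π hπ).st σ)^[i] a ≠ a' := by
  have huniq : ∀ {e : Dt} {q : Fc X b × ZMod 3}, LF X Q e → ed e = ed (dt q) → e = dt q := by
    intro e q hl he
    obtain ⟨r, rfl⟩ := H184.exists_dt h hl
    rw [h.th_inj (congrArg (fun p : ℂ × ℂ => p.1) he) (congrArg (fun p : ℂ × ℂ => p.2) he)]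
  have hf0 : f 0 = dt a := huniq (hp.sg.lf 0 hp.pos) hp.fst
  have hbi : (h.tri258 π hπ).Bi σ a := by
    rw [H184.bi_iff]
    have := (hp.sg.nx 0 hp.pos).1
    rw [hf0] at this
    exact this
  have key : ∀ i, i ≤ n → ed (f i) = ed (dt (((h.tri258 π hπ).st σ)^[i] a)) := by
    intro i
    induction i with
    | zero => intro _; rw [hf0]; rfl
    | succ i ih =>
      intro hi
      have e1 := huniq (hp.sg.lf i (by omega)) (ih (by omega))
      have e2 := hp.sg.nx i (by omega)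
      have e3 := H184.nx_st h π hπ (((h.tri258 π hπ).bi_iter i).2 hbi)
      rw [e1] at e2
      rw [iterate_succ', comp_apply]
      exact Prod.ext (e2.2.1.trans e3.2.1.symm) (e2.2.2.trans e3.2.2.symm)
  refine ⟨hbi, fun i hi => huniq (hp.sg.lf i hi) (key i hi.le), ?_, ?_⟩
  · have e := (key n le_rfl).symm.trans hp.lst
    exact h.th_inj (congrArg (fun p : ℂ × ℂ => p.1) e) (congrArg (fun p : ℂ × ℂ => p.2) e)
  · intro i h1 h2 h3
    apply hp.min i h1 h2
    rw [key i h2.le, h3]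

end iter

section inst

variable {X : Set ℂ} {b : ZMod 3 → ℂ} (h : HullTri X b) (x₀ : X)

/-- The window of the cell `k`. -/
abbrev Wd (M k : ℕ) : Set ℂ := csq (cellC M k) (3 * ms M)

/-- A positively oriented closed ring with five pieces `m, …, m + 4` after the foot `J` in the
window of the cell `k`. -/
structure Pg (M k : ℕ) (σ : X → Bool) (g₀ : Fc X b × ZMod 3) (D : ℕ → Fc X b × ZMod 3)
    (P Q Xr : ℕ → Set X) (J m : ℕ) : Prop where
  ring : CRing (HT h x₀) σ true (nc M) D P Q Xr ⟨b 0, h.mem 0⟩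
  hg : (HT h x₀).src g₀ = ⟨b 0, h.mem 0⟩
  pos : ∀ k, Pos (HT h x₀) σ (Xr k) g₀ (D k) (D (k + 1))
  m1 : 1 ≤ m
  mK : m + 7 ≤ nc M
  near : ∀ i, m ≤ i → i < m + 5 → ∀ v ∈ Xr (J + i), v.1 ∈ Wd M k
  far1 : ((HT h x₀).src (D J)).1 ∉ Wd M k
  far2 : ∃ i, m + 5 ≤ i ∧ i + 1 < nc M ∧ ((HT h x₀).src (D (J + i))).1 ∉ Wd M k
  cell : ∀ i, i + 1 < nc M → (i < m + 1 ∨ m + 4 ≤ i) → ∀ v ∈ Xr (J + i), ∀ z, z ∈ hc M k →
    z ∉ csq v.1 (ms M / 16)

variable {h x₀} {M k : ℕ} {s : ℂ → Bool} {g₀ : Fc X b × ZMod 3} {D : ℕ → Fc X b × ZMod 3}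
  {P Q Xr : ℕ → Set X} {J m : ℕ} {r : ℝ} {Θ : Dt → ℂ} {n : ℕ} {f : ℕ → Dt}

theorem pc_id {z : ℂ} (hz : z ∈ X) : pc (idmap X x₀) (fun v : X => s v.1) z = s z := by
  show s (idmap X x₀ z).1 = s z
  rw [H565.idmap_val x₀ hz]

/-- There is no piece in the window against the orientation. -/
theorem Pg.wrong (hp : Pg h x₀ M k (fun v : X => s v.1) g₀ D P Q Xr J m)
    (hPP : PP X (Wd M k) (pc (idmap X x₀) (fun v : X => s v.1)) (ed (dt (D (J + (m + 5)))))
      (ed (dt (D (J + m)))) n f) : False := by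
  have := h.finite_Fc
  obtain ⟨-, h2, h3, h4⟩ := iter_of_PP h (idmap X x₀) (fib_id X x₀) hPP
  have hm1 := hp.m1
  have hmK := hp.mK
  have e1 : D (J + m) = D (J + (m + 5) + (nc M - 5)) := by
    rw [← hp.ring.dper (J + m)]
    congr 1
    omega
  rw [e1] at h3 h4
  obtain ⟨-, a2, -⟩ := cring_pass (HT_planar h x₀) hp.ring hp.hg hp.pos (J := J + (m + 5))
    (l := nc M - 5) (by omega) (by omega) h3 h4
  obtain ⟨t, ht, ht2⟩ := a2 (nc M - (m + 5)) (by omega)
  have e2 : D (J + (m + 5) + (nc M - (m + 5))) = D J := by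
    rw [← hp.ring.dper J]
    congr 1
    omega
  rw [e2] at ht2
  apply hp.far1
  have h5 := (hPP.sg.lf t ht).mem.1
  rw [h2 t ht] at h5
  rw [← ht2, HT_src]
  exact h5

/-- **The square of the value of a cell is at most the energy of the world of its window.** -/
theorem Pg.le (hM : 0 < M) (hp : Pg h x₀ M k (fun v : X => s v.1) g₀ D P Q Xr J m)
    (hK : Convex ℝ (Wd M k)) (hKo : IsOpen (Wd M k)) (hb : ∀ j, b j ∉ Wd M k)
    (hF : SmallF X b (Wd M k) r) (hr : 0 ≤ r) (hr' : r < ms M / 16)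
    (hPP : PP X (Wd M k) (pc (idmap X x₀) (fun v : X => s v.1)) (ed (dt (D (J + m))))
      (ed (dt (D (J + (m + 5))))) n f) :
    ‖PV X (Wd M k) (pc (idmap X x₀) (fun v : X => s v.1)) (ed (dt (D (J + m))))
      (ed (dt (D (J + (m + 5))))) (cw (hc M k) Θ)‖ ^ 2 ≤
      H203.tot (kw h hK hKo hb).T (kcol X (Wd M k) s true)
        ((kw h hK hKo hb).th (cw (hc M k) Θ)) := by
  classical
  have := h.finite_Fc
  have h0 := ms_pos hM
  obtain ⟨h1, h2, h3, h4⟩ := iter_of_PP h (idmap X x₀) (fib_id X x₀) hPP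
  have hm1 := hp.m1
  have hmK := hp.mK
  obtain ⟨a1, -, a3⟩ := cring_pass (HT_planar h x₀) hp.ring hp.hg hp.pos (J := J + m)
    (l := 5) (by omega) (by omega) h3 h4
  -- the piece as a sum over the strand
  have e1 := seg_eq_PV h (idmap X x₀) (fib_id X x₀) (faith_id x₀ (Wd M k)) h1 hPP.pos h3 h4
    (fun i hi => by rw [← h2 i hi]; exact hPP.sg.lf i hi) (cw (hc M k) Θ)
  rw [← e1]
  -- the weight of the world
  have e2 : seg (h.tri258 (idmap X x₀) (fib_id X x₀)) (fun v : X => s v.1) (D (J + m)) n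
      (fun g => cw (hc M k) Θ (dt g)) = seg (HT h x₀) (fun v : X => s v.1) (D (J + m)) n
      ((kw h hK hKo hb).th (cw (hc M k) Θ)) := by
    unfold seg sideSum
    apply Finset.sum_congr rfl
    intro i hi
    rw [Finset.mem_Ico] at hi
    obtain ⟨j, hj, b1, b2, b3⟩ := a3 i hi.2
    have c1 := hp.near (m + j) (by omega) (by omega) _ (by rw [← add_assoc]; exact b1)
    have c2 := hp.near (m + j) (by omega) (by omega) _ (by rw [← add_assoc]; exact b2)
    have c3 := hp.near (m + j) (by omega) (by omega) _ (by rw [← add_assoc]; exact b3)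
    rw [HT_src] at c1
    rw [HT_tgt] at c2
    rw [HT_apex] at c3
    have e3 : cw (hc M k) Θ (dt (((HT h x₀).st fun v : X => s v.1)^[i] (D (J + m)))) =
        (kw h hK hKo hb).th (cw (hc M k) Θ)
          (((HT h x₀).st fun v : X => s v.1)^[i] (D (J + m))) :=
      (kw_th_of h hK hKo hb hF hr c1 c2 c3 (cw (hc M k) Θ)).symm
    rw [← e3]
  rw [e2]
  have hout : ∀ v : X, v.1 ∉ Wd M k → (kw h hK hKo hb).π v.1 = (kw h hK hKo hb).O :=
    fun v hv => kw_pi_out h hK hKo hb v.2 hv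
  have hA : ∀ z ∈ hc M k, closedBall z r ⊆ Wd M k := fun z hz =>
    hc_ball_sub hz (by linarith)
  let hD : Fintype (Fc X b × ZMod 3) := W0.instFintypeD (kw h hK hKo hb)
  refine cring_cell_le (HT_planar h x₀) (kw h hK hKo hb).planar (kw_cap h hK hKo hb x₀ s true)
    hp.ring hp.hg hp.pos hm1 hmK ?_ (hout _ hp.far1) ?_ ?_ ?_ a1 h3
  · intro i hi1 hi2 v hv
    exact (kw_pi_ne h hK hKo hb v.2).2 (hp.near i hi1 hi2 v hv)
  · obtain ⟨i, hi1, hi2, hi3⟩ := hp.far2
    exact ⟨i, hi1, hi2, hout _ hi3⟩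
  · intro g hg
    by_contra hc'
    exact kw_not_meets h hK hKo hb hF hr hA x₀ hc' hg
  · intro i hi hi' g hg hgX
    obtain ⟨b1, b2, b3, -⟩ := kw_th_ne h hK hKo hb hF hr hg
    refine hp.cell i hi hi' _ hgX _ b3 ?_
    rw [HT_src]
    have b4 : ‖cc (dt g) - tail g‖ < ms M / 16 := by
      rw [← dist_eq_norm]
      exact lt_of_le_of_lt b2 hr'
    rw [N.mem_csq, ← Complex.sub_re, ← Complex.sub_im]
    exact ⟨lt_of_le_of_lt (Complex.abs_re_le_norm _) b4,
      lt_of_le_of_lt (Complex.abs_im_le_norm _) b4⟩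

end inst

/-! ### the two orientations of the comb ring -/

section orient

variable {X : Set ℂ} {b : ZMod 3 → ℂ} {h : HullTri X b} {x₀ : X} {M k : ℕ} {σ : X → Bool}
  {g₀ : Fc X b × ZMod 3} {d : ℕ → Fc X b × ZMod 3} {P Q : ℕ → Set X}

theorem vreg_per (M k : ℕ) : (vs (reg M (k + nc M)) : Set X) = vs (reg M k) := by
  rw [H959.reg_add_nc]

theorem near_reg (hM : 0 < M) {j : ℕ} (h1 : k + nc M ≤ j + 2) (h2 : j ≤ k + nc M + 2) :
    ∀ v ∈ (vs (reg M j) : Set X), v.1 ∈ Wd M k := by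
  intro v hv
  have h0 := ms_pos hM
  have h3 := H959.reg_subset_window hM (k := k + nc M) (n := 2) (j := j) h1 h2 hv
  rw [N.cellC_add_nc] at h3
  obtain ⟨a1, a2⟩ := h3
  push_cast at a1 a2
  exact ⟨by linarith, by linarith⟩

theorem out_reg (hM : 0 < M) {j : ℕ} (h1 : k + 8 ≤ j) (h2 : j + 8 ≤ k + nc M) {v : X}
    (hv : v ∈ (vs (reg M j) : Set X)) : v.1 ∉ Wd M k :=
  fun hh => Set.disjoint_left.1 (far_reg hM h1 h2) hh hv

/-- The increasing ring. -/
theorem pg_pos (hM : 2 ≤ M)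
    (hR : CRing (HT h x₀) σ true (nc M) d P Q (fun k => vs (reg M k)) ⟨b 0, h.mem 0⟩)
    (hg : (HT h x₀).src g₀ = ⟨b 0, h.mem 0⟩)
    (hpos : ∀ k, Pos (HT h x₀) σ (vs (reg M k)) g₀ (d k) (d (k + 1))) (k : ℕ) :
    Pg h x₀ M k σ g₀ d P Q (fun k => vs (reg M k)) (k + (4 * M + 2)) (4 * M) := by
  have hnc : nc M = 8 * M + 4 := by unfold nc; ring
  have hM0 : 0 < M := by omega
  refine ⟨hR, hg, hpos, by omega, by omega, ?_, ?_, ?_, ?_⟩
  · intro i hi1 hi2
    exact near_reg hM0 (by omega) (by omega)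
  · exact out_reg hM0 (by omega) (by omega) (hR.subP _ (hR.s1 (k + (4 * M + 2))))
  · refine ⟨nc M - 2, by omega, by omega, ?_⟩
    have h1 := hR.subP _ (hR.s1 (k + (4 * M + 2) + (nc M - 2)))
    have e : (vs (reg M (k + (4 * M + 2) + (nc M - 2))) : Set X) = vs (reg M (k + 4 * M)) := by
      rw [← vreg_per M (k + 4 * M)]
      congr 2
      omega
    simp only [e] at h1
    exact out_reg hM0 (by omega) (by omega) h1
  · intro i hi hi' v hv z hz hzv
    rcases hi' with hi' | hi'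
    · exact hc_reg hM0 hz hv hzv (by omega) (by omega)
    · refine hc_reg hM0 (k := k + nc M) (by rw [hc_add_nc]; exact hz) hv hzv (by omega) (by omega)

/-- The decreasing ring. -/
theorem pg_neg (hM : 2 ≤ M) (hk : k ≤ nc M)
    (hR : CRing (HT h x₀) σ true (nc M) d P Q (fun k => vs (reg M k)) ⟨b 0, h.mem 0⟩)
    (hg : (HT h x₀).src g₀ = ⟨b 0, h.mem 0⟩)
    (hpos : ∀ k, Pos (HT h x₀) σ (vs (reg M (ri (nc M) k - 1))) g₀ (d (ri (nc M) k))
      (d (ri (nc M) (k + 1)))) :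
    Pg h x₀ M k σ g₀ (fun k => d (ri (nc M) k)) (fun k => P (ri (nc M) k - 1))
      (fun k => Q (ri (nc M) k - 1)) (fun k => vs (reg M (ri (nc M) k - 1)))
      (2 * nc M - (4 * M + 2) - k) (4 * M - 1) ∧
    (∀ i ≤ nc M, d (ri (nc M) (2 * nc M - (4 * M + 2) - k + i)) =
      d (k + (4 * M + 2) + nc M - i)) := by
  have hnc : nc M = 8 * M + 4 := by unfold nc; ring
  have hM0 : 0 < M := by omega
  have hK : 0 < nc M := by omega
  have hmod : ∀ i ≤ nc M, (k + (4 * M + 2) + nc M - i) + (2 * nc M - (4 * M + 2) - k + i) ≡ 0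
      [MOD nc M] := by
    intro i hi
    have : (k + (4 * M + 2) + nc M - i) + (2 * nc M - (4 * M + 2) - k + i) = 3 * nc M := by omega
    rw [this]
    exact (Nat.modEq_zero_iff_dvd).2 (Dvd.intro_left _ rfl)
  have hreg : ∀ i < nc M, (vs (reg M (ri (nc M) (2 * nc M - (4 * M + 2) - k + i) - 1)) : Set X) =
      vs (reg M (k + (4 * M + 2) + nc M - i - 1)) := by
    intro i hi
    refine per_modEq (f := fun k => (vs (reg M k) : Set X)) (vreg_per M)
      (ri_sub_modEq hK ?_)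
    have := hmod i hi.le
    rwa [show k + (4 * M + 2) + nc M - i - 1 + 1 = k + (4 * M + 2) + nc M - i by omega]
  have hd : ∀ i ≤ nc M, d (ri (nc M) (2 * nc M - (4 * M + 2) - k + i)) =
      d (k + (4 * M + 2) + nc M - i) := fun i hi =>
    per_modEq (f := d) hR.dper (ri_modEq hK (hmod i hi))
  have hR' := hR.reverse (fun k => vreg_per M k)
  refine ⟨⟨hR', hg, hpos, by omega, by omega, ?_, ?_, ?_, ?_⟩, hd⟩
  · intro i hi1 hi2 v hv
    have e := hreg i (by omega)
    simp only [e] at hv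
    exact near_reg hM0 (by omega) (by omega) v hv
  · have h1 := hR.subP _ (hR.s1 (k + (4 * M + 2)))
    have e : d (ri (nc M) (2 * nc M - (4 * M + 2) - k)) = d (k + (4 * M + 2)) := by
      have := hd 0 (by omega)
      rw [add_zero] at this
      rw [this, ← hR.dper (k + (4 * M + 2))]
      rfl
    simp only [e]
    exact out_reg hM0 (by omega) (by omega) h1
  · refine ⟨nc M - 2, by omega, by omega, ?_⟩
    have h1 := hR.subP _ (hR.s1 (k + (4 * M + 2) + 2))
    have e : d (ri (nc M) (2 * nc M - (4 * M + 2) - k + (nc M - 2))) = d (k + (4 * M + 2) + 2) := by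
      rw [hd _ (by omega)]
      congr 1
      omega
    simp only [e]
    exact out_reg hM0 (by omega) (by omega) h1
  · intro i hi hi' v hv z hz hzv
    have e := hreg i (by omega)
    simp only [e] at hv
    rcases hi' with hi' | hi'
    · refine hc_reg hM0 (k := k + nc M) (by rw [hc_add_nc]; exact hz) hv hzv (by omega) (by omega)
    · exact hc_reg hM0 hz hv hzv (by omega) (by omega)

end orient

/-! ### the bound for the comb ring -/

section comb

variable {X : Set ℂ} {b : ZMod 3 → ℂ} {h : HullTri X b} {x₀ : X} {M k : ℕ} {s : ℂ → Bool}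
  {d : ℕ → Fc X b × ZMod 3} {P Q : ℕ → Set X} {r : ℝ} {Θ : Dt → ℂ} {n : ℕ} {f : ℕ → Dt}

/-- **The square of the value of a cell of the comb ring is at most the energy of the world of its
window**, for every piece in the window between the feet of the gates `k - 2` and `k + 3`, in
either direction. -/
theorem ring_PV_le (hM : 2 ≤ M) (hk : k ≤ nc M)
    (hR : CRing (HT h x₀) (fun v : X => s v.1) true (nc M) d P Q (fun k => vs (reg M k))
      ⟨b 0, h.mem 0⟩)
    (hK : Convex ℝ (Wd M k)) (hKo : IsOpen (Wd M k)) (hb : ∀ j, b j ∉ Wd M k)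
    (hF : SmallF X b (Wd M k) r) (hr : 0 ≤ r) (hr' : r < ms M / 16)
    {a a' : Fc X b × ZMod 3}
    (ha : (a = d (gb M k) ∧ a' = d (gb M k + 5)) ∨ (a = d (gb M k + 5) ∧ a' = d (gb M k)))
    (hPP : PP X (Wd M k) (pc (idmap X x₀) (fun v : X => s v.1)) (ed (dt a)) (ed (dt a')) n f) :
    ‖PV X (Wd M k) (pc (idmap X x₀) (fun v : X => s v.1)) (ed (dt a)) (ed (dt a'))
      (cw (hc M k) Θ)‖ ^ 2 ≤
      H203.tot (kw h hK hKo hb).T (kcol X (Wd M k) s true)
        ((kw h hK hKo hb).th (cw (hc M k) Θ)) := by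
  have := h.finite_Fc
  have hnc : nc M = 8 * M + 4 := by unfold nc; ring
  have hM0 : 0 < M := by omega
  have hgb : gb M k = k + (nc M - 2) := rfl
  obtain ⟨g₀, hg, -⟩ := HT_dart h x₀ (x := ⟨b 0, h.mem 0⟩) (y := ⟨b (0 + 1), h.mem _⟩)
    (nbr_symm (h.nbr_hull 0))
  rcases hR.dichotomy (HT_planar h x₀) (fun k => vreg_per M k) hg with hpos | hneg
  · have hp := pg_pos hM hR hg hpos k
    have e1 : k + (4 * M + 2) + 4 * M = gb M k := by omega
    have e2 : k + (4 * M + 2) + (4 * M + 5) = gb M k + 5 := by omega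
    rcases ha with ⟨rfl, rfl⟩ | ⟨rfl, rfl⟩
    · have h1 := hp.le hM0 hK hKo hb hF hr hr' (Θ := Θ) (n := n) (f := f)
      rw [e1, e2] at h1
      exact h1 hPP
    · have h1 := hp.wrong (n := n) (f := f)
      rw [e1, e2] at h1
      exact (h1 hPP).elim
  · obtain ⟨hp, hd⟩ := pg_neg hM hk hR hg hneg
    have e1 : d (ri (nc M) (2 * nc M - (4 * M + 2) - k + (4 * M - 1))) = d (gb M k + 5) := by
      rw [hd _ (by omega)]
      congr 1
      omega
    have e2 : d (ri (nc M) (2 * nc M - (4 * M + 2) - k + (4 * M - 1 + 5))) = d (gb M k) := by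
      rw [hd _ (by omega)]
      congr 1
      omega
    rcases ha with ⟨rfl, rfl⟩ | ⟨rfl, rfl⟩
    · have h1 := hp.wrong (n := n) (f := f)
      simp only [e1, e2] at h1
      exact (h1 hPP).elim
    · have h1 := hp.le hM0 hK hKo hb hF hr hr' (Θ := Θ) (n := n) (f := f)
      simp only [e1, e2] at h1
      exact h1 hPP

end comb

end Vale.Agent.P148.R2.H488
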