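import Vale.Agent.P148.R2.H488.N4e
import Vale.Agent.P148.R2.H565.Loc11

/-!
# The value of a cell of the comb and the world of its window
-/

set_option linter.unusedSectionVars false

open Set Relation Metric Function
open scoped ENNReal

namespace Vale.Agent.P148.R2.H488

open Vale.Agent.P148.R2.H258 Vale.Agent.P148.R2.H871 Vale.Agent.P148.R2.H565
open Vale.Agent.P148.R2.H184 (Dt cc LF EQ dt Faith pc rt)
open Vale.Agent.P148.R2.H592 (HullTri nbr nbr_symm ConnIn Fc Fib idmap fib_id tail head vc)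
open Vale.Agent.P148.R2.H566 (W0)
open Vale.Agent.P148.R2.N (ms nc gateC cellC gbox cell csq ms_pos)
open Vale.Agent.P148.R2.H959 (reg)

open scoped Classical in
/-- The square of a mean is at most the maximum of the squares. -/
theorem norm_mean_sq_le {α : Type*} (S : Set α) (F : α → ℂ) {G : ℝ} (hG : 0 ≤ G)
    (h : ∀ p ∈ S, ‖F p‖ ^ 2 ≤ G) : ‖(∑ᶠ p ∈ S, F p) / (S.ncard : ℂ)‖ ^ 2 ≤ G := by
  by_cases hS : S.Finite
  · rcases Nat.eq_zero_or_pos S.ncard with h0 | h0
    · rw [h0]; simpa using hG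
    · rw [finsum_mem_eq_finite_toFinset_sum _ hS]
      have h1 : ‖∑ p ∈ hS.toFinset, F p‖ ≤ (S.ncard : ℝ) * Real.sqrt G := by
        refine (norm_sum_le _ _).trans ?_
        rw [Set.ncard_eq_toFinset_card S hS, ← nsmul_eq_mul]
        refine Finset.sum_le_card_nsmul _ _ _ fun p hp => ?_
        rw [Set.Finite.mem_toFinset] at hp
        exact Real.le_sqrt_of_sq_le (h p hp)
      have h2 : (0 : ℝ) < S.ncard := by exact_mod_cast h0
      rw [norm_div, Complex.norm_natCast, div_pow, div_le_iff₀ (by positivity)]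
      calc ‖∑ p ∈ hS.toFinset, F p‖ ^ 2 ≤ ((S.ncard : ℝ) * Real.sqrt G) ^ 2 := by gcongr
        _ = G * (S.ncard : ℝ) ^ 2 := by rw [mul_pow, Real.sq_sqrt hG]; ring
  · rw [Set.Infinite.ncard hS]; simpa using hG

theorem bc_of_mem {B : Set ℂ} {z : ℂ} (h : z ∈ B) : bc B z = true := by
  unfold bc
  simp [h]

theorem bc_of_not_mem {B : Set ℂ} {z : ℂ} (h : z ∉ B) : bc B z = false := by
  unfold bc
  simp [h]

section feet

variable {V D : Type*} {T : Tri V D} {σ : V → Bool} {c : Bool} {K : ℕ}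
  {E E' H H' B X : ℕ → Set V} {ω : V}

/-- Hub data and two admissible feet give a closed ring of tubes through these feet. -/
theorem exists_ring_through [Finite D] (hPl : T.Planar) (h : Hubs T σ c K E E' H H' B X ω)
    {i j : ℕ} (hij : i % K ≠ j % K) {a a' : D} (ha : FootOK T σ c (E i) (E' i) (B i) ω a)
    (ha' : FootOK T σ c (E j) (E' j) (B j) ω a') :
    ∃ d P Q, CRing T σ c K d P Q X ω ∧ d i = a ∧ d j = a' := by
  classical
  have h4 := h.four
  choose f hf using h.exists_foot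
  have hE : ∀ n, E (n % K) = E n := fun n => per_modEq (f := E) h.eper (Nat.mod_modEq _ _)
  have hE' : ∀ n, E' (n % K) = E' n := fun n => per_modEq (f := E') h.eper' (Nat.mod_modEq _ _)
  have hB : ∀ n, B (n % K) = B n := fun n => per_modEq (f := B) h.bper (Nat.mod_modEq _ _)
  have key : ∀ {m n : ℕ} {x : D}, m % K = n % K → FootOK T σ c (E m) (E' m) (B m) ω x →
      FootOK T σ c (E n) (E' n) (B n) ω x := by
    intro m n x hmn hx
    rw [← hE, ← hE', ← hB] at hx ⊢
    rwa [← hmn]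
  set d : ℕ → D := fun n => if n % K = i % K then a else if n % K = j % K then a' else f (n % K)
    with hd
  have hdp : ∀ k, d (k + K) = d k := by
    intro k
    simp only [hd, Nat.add_mod_right]
  have hdok : ∀ k, FootOK T σ c (E k) (E' k) (B k) ω (d k) := by
    intro k
    simp only [hd]
    by_cases h1 : k % K = i % K
    · rw [if_pos h1]; exact key h1.symm ha
    · rw [if_neg h1]
      by_cases h2 : k % K = j % K
      · rw [if_pos h2]; exact key h2.symm ha'
      · rw [if_neg h2]; exact key (Nat.mod_mod _ _) (hf (k % K))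
  obtain ⟨P, Q, hR⟩ := (h.comb hPl hdp hdok).cring
  refine ⟨d, P, Q, hR, ?_, ?_⟩
  · simp only [hd]; simp
  · simp only [hd]
    rw [if_neg (Ne.symm hij)]; simp

end feet

section cellV

variable {X : Set ℂ} {b : ZMod 3 → ℂ} {h : HullTri X b} {x₀ : X} {M k : ℕ} {s : ℂ → Bool}
  {r : ℝ} {Θ : Dt → ℂ} {E E' H H' : ℕ → Set X} {B : Set ℂ}

/-- **The square of the value of a cell of the comb is at most the energy of the world of its
window.** `hft` : the feet of the window are admissible. -/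
theorem cellV_sq_le (hM : 2 ≤ M) (hk : k ≤ nc M)
    (hH : Hubs (HT h x₀) (fun v : X => s v.1) true (nc M) E E' H H' (fun k => vs (gbox M k))
      (fun k => vs (reg M k)) ⟨b 0, h.mem 0⟩)
    (hft : ∀ j, j = gb M k ∨ j = gb M k + 5 → ∀ a,
      Foot M (X ∩ Qw M (gb M k)) (B ∩ Qw M (gb M k)) j a → ∃ q : Fc X b × ZMod 3,
        ed (dt q) = a ∧ FootOK (HT h x₀) (fun v : X => s v.1) true (E j) (E' j)
          (vs (gbox M j)) ⟨b 0, h.mem 0⟩ q)
    (hB : ∀ z ∈ X, z ∈ Wd M k → (z ∈ B ↔ s z = true))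
    (hK : Convex ℝ (Wd M k)) (hKo : IsOpen (Wd M k)) (hb : ∀ j, b j ∉ Wd M k)
    (hF : SmallF X b (Wd M k) r) (hr : 0 ≤ r) (hr' : r < ms M / 16) :
    ‖cellV M X B (cw (hc M k) Θ) k‖ ^ 2 ≤
      H203.tot (kw h hK hKo hb).T (kcol X (Wd M k) s true)
        ((kw h hK hKo hb).th (cw (hc M k) Θ)) := by
  classical
  have hQ : Qw M (gb M k) = Wd M k := Qw_gb M k
  have hnc : nc M = 8 * M + 4 := by unfold nc; ring
  have := h.finite_Fc
  unfold cellV Fv
  refine norm_mean_sq_le _ _ (H203.tot_nonneg _ _ _) ?_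
  rintro ⟨p, p'⟩ hp
  obtain ⟨hfeet, n, f, hPP⟩ := hp
  simp only at hfeet hPP ⊢
  have hne : gb M k % nc M ≠ (gb M k + 5) % nc M := mod_ne (by omega) (by omega)
  have hXX : (X ∩ Qw M (gb M k)) ∩ Qw M (gb M k) = X ∩ Qw M (gb M k) := by
    rw [inter_assoc, inter_self]
  have hcol : ∀ z ∈ (X ∩ Qw M (gb M k)) ∩ Qw M (gb M k),
      pc (idmap X x₀) (fun v : X => s v.1) z = bc (B ∩ Qw M (gb M k)) z := by
    rintro z ⟨⟨hz, hzQ⟩, -⟩
    rw [pc_id hz]
    have h1 := hB z hz (by rw [← hQ]; exact hzQ)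
    by_cases h2 : s z = true
    · have h3 : z ∈ B ∩ Qw M (gb M k) := ⟨h1.2 h2, hzQ⟩
      rw [h2, bc_of_mem h3]
    · rw [bc_of_not_mem fun h3 => h2 (h1.1 h3.1)]
      simpa using h2
  have hPP' := hPP.congr (X' := X) (by rw [hXX]) hcol
  rw [← PV_congr (X' := X) (by rw [hXX]) hcol]
  rcases hfeet with ⟨h1, h2⟩ | ⟨h1, h2⟩
  · obtain ⟨q, hq, hqf⟩ := hft _ (Or.inl rfl) _ h1
    obtain ⟨q', hq', hqf'⟩ := hft _ (Or.inr rfl) _ h2
    obtain ⟨d, P, Q, hR, e1, e2⟩ := exists_ring_through (HT_planar h x₀) hH hne hqf hqf'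
    have := ring_PV_le hM hk hR hK hKo hb hF hr hr' (Θ := Θ) (a := q) (a' := q') (n := n) (f := f)
      (Or.inl ⟨e1.symm, e2.symm⟩)
    rw [hq, hq'] at this
    rw [hQ] at hPP' ⊢
    exact this hPP'
  · obtain ⟨q, hq, hqf⟩ := hft _ (Or.inr rfl) _ h1
    obtain ⟨q', hq', hqf'⟩ := hft _ (Or.inl rfl) _ h2
    obtain ⟨d, P, Q, hR, e1, e2⟩ := exists_ring_through (HT_planar h x₀) hH hne hqf' hqf
    have := ring_PV_le hM hk hR hK hKo hb hF hr hr' (Θ := Θ) (a := q) (a' := q') (n := n) (f := f)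
      (Or.inr ⟨e2.symm, e1.symm⟩)
    rw [hq, hq'] at this
    rw [hQ] at hPP' ⊢
    exact this hPP'

end cellV

end Vale.Agent.P148.R2.H488
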