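import Vale.Agent.P148.R2.H488.N4f
import Vale.Agent.P148.R2.H504.Bridge

/-!
# Feet of the window are admissible feet of the comb ring
-/

set_option linter.unusedSectionVars false

open Set Relation Metric Function

namespace Vale.Agent.P148.R2.H488

open Vale.Agent.P148.R2.H258 Vale.Agent.P148.R2.H871 Vale.Agent.P148.R2.H565
open Vale.Agent.P148.R2.H184 (Dt cc LF EQ dt Faith pc rt)
open Vale.Agent.P148.R2.H592 (HullTri nbr nbr_symm ConnIn Fc Fib idmap fib_id tail head vc)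
open Vale.Agent.P148.R2.N (ms nc gateC cellC gbox cell csq ms_pos)
open Vale.Agent.P148.R2.H959 (reg)
open Vale.Agent.P148.R2.H678 (core hub pin pout sd hbox inHub outHub inRim outRim InGood OutGood)
open Vale.Agent.P148.R2.H504 (NAgree)

section core

variable {M : ℕ} {X Y C C' : Set ℂ} {z : ℂ}

/-- The core of a hub only depends on the points in its box. -/
theorem core_loc (h : NAgree X Y (hbox M z)) (hC : C' ∩ hbox M z = C ∩ hbox M z)
    (hin : hub (nbr X) (X ∩ ball z (sd M)) C ⊆ hbox M z) :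
    core (nbr Y) (Y ∩ ball z (sd M)) C' = core (nbr X) (X ∩ ball z (sd M)) C := by
  have h1 : Y ∩ ball z (sd M) = X ∩ ball z (sd M) :=
    H938.inter_eq_of_sub h.pts (H504.ball_sub_hbox M z)
  rw [h1]
  have h2 : core (nbr X) (X ∩ ball z (sd M)) C' = core (nbr X) (X ∩ ball z (sd M)) C := by
    refine H678.core_congr fun v hv => ?_
    have hz := hin hv
    constructor
    · intro hv'
      exact (hC ▸ (⟨hv', hz⟩ : v ∈ C' ∩ hbox M z) : v ∈ C ∩ hbox M z).1
    · intro hv'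
      exact (hC.symm ▸ (⟨hv', hz⟩ : v ∈ C ∩ hbox M z) : v ∈ C' ∩ hbox M z).1
  rw [← h2]
  have h3 : core (nbr X) (X ∩ ball z (sd M)) C' ⊆ hbox M z := by
    rw [h2]; exact H678.core_sub_hub.trans hin
  exact H678.core_congr_rel fun u hu v => h.nb u (h3 hu) v

end core

section far

variable {X : Set ℂ} {b : ZMod 3 → ℂ} {h : HullTri X b} {x₀ : X} {E : Set ℂ} {ω : X}

/-- Paths off `E` keep the far component. -/
theorem far_path {n : ℕ} {v : ℕ → ℂ} (hv : ∀ i < n, nbr X (v i) (v (i + 1)))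
    (hE : ∀ i ≤ n, v i ∉ E) (hX : ∀ i ≤ n, v i ∈ X)
    (hf : Far (HT h x₀) (vs E) ω ⟨v n, hX n le_rfl⟩) :
    Far (HT h x₀) (vs E) ω ⟨v 0, hX 0 (Nat.zero_le n)⟩ := by
  induction n with
  | zero => exact hf
  | succ n ih =>
    refine ih (fun i hi => hv i (by omega)) (fun i hi => hE i (by omega))
      (fun i hi => hX i (by omega)) ?_
    obtain ⟨q, hq1, hq2⟩ := HT_dart h x₀ (x := ⟨v n, hX n (by omega)⟩)
      (y := ⟨v (n + 1), hX (n + 1) le_rfl⟩) (hv n (by omega))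
    have h3 := Tri.Walk.single (T := HT h x₀) q
    rw [hq1, hq2] at h3
    refine hf.walk h3 fun g hg => ?_
    rw [List.mem_singleton] at hg
    subst hg
    rw [hq1, hq2]
    exact ⟨hE n (by omega), hE (n + 1) le_rfl⟩

theorem far_path' {n : ℕ} {v : ℕ → ℂ} (hv : ∀ i < n, nbr X (v i) (v (i + 1)))
    (hE : ∀ i ≤ n, v i ∉ E) (hX : ∀ i ≤ n, v i ∈ X)
    (hf : Far (HT h x₀) (vs E) ω ⟨v 0, hX 0 (Nat.zero_le n)⟩) :
    Far (HT h x₀) (vs E) ω ⟨v n, hX n le_rfl⟩ := by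
  have h1 := far_path (h := h) (x₀ := x₀) (E := E) (ω := ω) (n := n) (v := fun i => v (n - i))
    (fun i hi => by
      have := hv (n - (i + 1)) (by omega)
      rw [show n - (i + 1) + 1 = n - i by omega] at this
      exact nbr_symm this) (fun i _ => hE _ (by omega)) (fun i _ => hX _ (by omega))
    (by simpa using hf)
  simpa using h1

end far

section foot

variable {X : Set ℂ} {b : ZMod 3 → ℂ} {h : HullTri X b} {x₀ : X} {M : ℕ}
  {Bl₁ Wh₁ Bl₂ Wh₂ B Y : Set ℂ} {s : ℂ → Bool} {j : ℕ}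

/-- **Feet of the window.** `Y` are the sites of the window, `B'` its black sites, and the colours
on the hubs are the colours of the gates. -/
theorem foot_ok (hM : 0 < M) (hR : Regs M (reg M)) (hbR : ∀ k j, b j ∉ reg M k)
    (hc : CombOK M X Bl₁ Wh₁ Bl₂ Wh₂ s) {Bk Wt B' : Set ℂ}
    (hN : NAgree X Y (gbox M j)) (hYX : Y ⊆ X) (hB' : ∀ z ∈ Y, z ∈ B' ↔ s z = true)
    (hwc : ∀ z ∈ inHub M X Wh₁ j, z ∈ Wt ↔ z ∈ Wh₁)
    (hbc : ∀ z ∈ outHub M X Bl₁ j, z ∈ Bk ↔ z ∈ Bl₁)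
    (hwi : (Y \ B') ∩ hbox M (pin M j) = Wt ∩ hbox M (pin M j))
    (hbo : B' ∩ hbox M (pout M j) = Bk ∩ hbox M (pout M j))
    {a : ℂ × ℂ} (ha : Foot M Y B' j a) : ∃ q : Fc X b × ZMod 3, ed (dt q) = a ∧
      FootOK (HT h x₀) (fun v : X => s v.1) true
        (vs (core (nbr X) (X ∩ ball (pin M j) (sd M)) Wh₁))
        (vs (core (nbr X) (X ∩ ball (pout M j) (sd M)) Bl₁)) (vs (gbox M j)) ⟨b 0, h.mem 0⟩ q := by
  have hH := hc.hubs hM h x₀ hR hbR
  have hbi : hbox M (pin M j) ⊆ gbox M j := H995.hbox_pin_sub hM j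
  have hbo' : hbox M (pout M j) ⊆ gbox M j := H995.hbox_pout_sub hM j
  -- the hubs of the window are the hubs
  have ei : hub (nbr X) (X ∩ ball (pin M j) (sd M)) Wt =
      hub (nbr X) (X ∩ ball (pin M j) (sd M)) Wh₁ := H678.hub_congr hwc
  have eo : hub (nbr X) (X ∩ ball (pout M j) (sd M)) Bk =
      hub (nbr X) (X ∩ ball (pout M j) (sd M)) Bl₁ := H678.hub_congr hbc
  have ei' : core (nbr X) (X ∩ ball (pin M j) (sd M)) Wt =
      core (nbr X) (X ∩ ball (pin M j) (sd M)) Wh₁ := H678.core_congr hwc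
  have eo' : core (nbr X) (X ∩ ball (pout M j) (sd M)) Bk =
      core (nbr X) (X ∩ ball (pout M j) (sd M)) Bl₁ := H678.core_congr hbc
  have gi : hub (nbr X) (X ∩ ball (pin M j) (sd M)) Wt ⊆ hbox M (pin M j) := by
    rw [ei]; exact hc.inG' j
  have go : hub (nbr X) (X ∩ ball (pout M j) (sd M)) Bk ⊆ hbox M (pout M j) := by
    rw [eo]; exact hc.outG' j
  have ci : core (nbr Y) (Y ∩ ball (pin M j) (sd M)) (Y \ B') =
      core (nbr X) (X ∩ ball (pin M j) (sd M)) Wh₁ := by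
    rw [← ei']; exact core_loc (hN.mono hbi) hwi gi
  have co : core (nbr Y) (Y ∩ ball (pout M j) (sd M)) B' =
      core (nbr X) (X ∩ ball (pout M j) (sd M)) Bl₁ := by
    rw [← eo']; exact core_loc (hN.mono hbo') hbo go
  have hi : inHub M Y (Y \ B') j = inHub M X Wh₁ j :=
    (H504.hub_loc (hN.mono hbi) hwi gi).trans ei
  have ho : outHub M Y B' j = outHub M X Bl₁ j :=
    (H504.hub_loc (hN.mono hbo') hbo go).trans eo
  obtain ⟨n, v, hn, hnb, hv0, hv1, hin, hout, hmid, hgb⟩ := ha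
  have hXn : ∀ i < n, nbr X (v i) (v (i + 1)) := fun i hi' =>
    (hN.nb _ (hgb i hi'.le) _).1 (hnb i hi')
  have hY : ∀ i ≤ n, v i ∈ Y := by
    intro i hi'
    rcases Nat.lt_or_ge i n with h1 | h1
    · exact (hnb i h1).1
    · have : i = (n - 1) + 1 := by omega
      rw [this]
      exact (hnb (n - 1) (by omega)).2.1
  have hX : ∀ i ≤ n, v i ∈ X := fun i hi' => hYX (hY i hi')
  -- the ends
  have hin1 : v 0 ∈ inHub M X Wh₁ j := by rw [← hi]; exact hin.1
  have hin2 : v 0 ∉ core (nbr X) (X ∩ ball (pin M j) (sd M)) Wh₁ := by rw [← ci]; exact hin.2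
  have hout1 : v n ∈ outHub M X Bl₁ j := by rw [← ho]; exact hout.1
  have hout2 : v n ∉ core (nbr X) (X ∩ ball (pout M j) (sd M)) Bl₁ := by rw [← co]; exact hout.2
  have hbox0 : v 0 ∈ csq (pin M j) (ms M / 16) := hbox_sub_csq hM _ (hc.inG' j hin1)
  have hboxn : v n ∈ csq (pout M j) (ms M / 16) := hbox_sub_csq hM _ (hc.outG' j hout1)
  have hsubi : core (nbr X) (X ∩ ball (pin M j) (sd M)) Wh₁ ⊆ csq (pin M j) (ms M / 16) :=
    H678.core_sub_hub.trans ((hc.inG' j).trans (hbox_sub_csq hM _))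
  have hsubo : core (nbr X) (X ∩ ball (pout M j) (sd M)) Bl₁ ⊆ csq (pout M j) (ms M / 16) :=
    H678.core_sub_hub.trans ((hc.outG' j).trans (hbox_sub_csq hM _))
  -- the path is off the two cores
  have offi : ∀ i ≤ n, v i ∉ core (nbr X) (X ∩ ball (pin M j) (sd M)) Wh₁ := by
    intro i hi'
    rcases Nat.eq_zero_or_pos i with h1 | h1
    · rw [h1]; exact hin2
    rcases hi'.lt_or_eq with h2 | h2
    · have := (hmid i h1 h2).2.1
      rw [hi] at this
      exact fun hh => this (H678.core_sub_hub hh)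
    · rw [h2]
      exact fun hh => csq_disj hM j (hsubi hh) hboxn
  have offo : ∀ i ≤ n, v i ∉ core (nbr X) (X ∩ ball (pout M j) (sd M)) Bl₁ := by
    intro i hi'
    rcases Nat.eq_zero_or_pos i with h1 | h1
    · rw [h1]
      exact fun hh => csq_disj hM j hbox0 (hsubo hh)
    rcases hi'.lt_or_eq with h2 | h2
    · have := (hmid i h1 h2).2.2
      rw [ho] at this
      exact fun hh => this (H678.core_sub_hub hh)
    · rw [h2]; exact hout2
  -- colours
  have hcol : ∀ i, 0 < i → i ≤ n → s (v i) = false := by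
    intro i h1 h2
    have h3 : v i ∉ B' := by
      rcases h2.lt_or_eq with h4 | h4
      · exact (hmid i h1 h4).1
      · rw [h4]; exact H678.rim_not hout
    have h4 := (hB' (v i) (hY i h2)).not.1 h3
    simpa using h4
  -- far components
  have farn : Far (HT h x₀) (vs (core (nbr X) (X ∩ ball (pin M j) (sd M)) Wh₁))
      ⟨b 0, h.mem 0⟩ ⟨v n, hX n le_rfl⟩ :=
    far_of_box (hH.outH j) (fun x hx => hsubi hx) (hH.connH j)
      (fun hh => csq_disj hM j hh hboxn)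
  have far0 : Far (HT h x₀) (vs (core (nbr X) (X ∩ ball (pin M j) (sd M)) Wh₁))
      ⟨b 0, h.mem 0⟩ ⟨v 0, hX 0 (Nat.zero_le n)⟩ := far_path hXn offi hX farn
  have far0' : Far (HT h x₀) (vs (core (nbr X) (X ∩ ball (pout M j) (sd M)) Bl₁))
      ⟨b 0, h.mem 0⟩ ⟨v 0, hX 0 (Nat.zero_le n)⟩ :=
    far_of_box (hH.outH' j) (fun x hx => hsubo hx) (hH.connH' j)
      (fun hh => csq_disj hM j hbox0 hh)
  have farn' : Far (HT h x₀) (vs (core (nbr X) (X ∩ ball (pout M j) (sd M)) Bl₁))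
      ⟨b 0, h.mem 0⟩ ⟨v n, hX n le_rfl⟩ := far_path' hXn offo hX far0'
  -- neighbours in the cores
  obtain ⟨u, hu, huv⟩ := H678.rim_nbr hin
  obtain ⟨u', hu', huv'⟩ := H678.rim_nbr hout
  rw [ci] at hu
  rw [co] at hu'
  have hux : nbr X u (v 0) := (hN.nb _ (hbi (hc.inG' j (H678.core_sub_hub hu))) _).1 huv
  have hux' : nbr X u' (v n) := (hN.nb _ (hbo' (hc.outG' j (H678.core_sub_hub hu'))) _).1 huv'
  obtain ⟨g, hg1, hg2⟩ := HT_dart h x₀ (x := ⟨v 0, hX 0 (Nat.zero_le n)⟩) (y := ⟨u, hux.1⟩)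
    (nbr_symm hux)
  obtain ⟨g', hg1', hg2'⟩ := HT_dart h x₀ (x := ⟨v n, hX n le_rfl⟩) (y := ⟨u', hux'.1⟩)
    (nbr_symm hux')
  have h01 := hXn 0 hn
  rw [zero_add] at h01
  have htail : tail (h.dart h01) = v 0 := h.tail_dart _
  have hhead : head (h.dart h01) = v 1 := h.head_dart _
  have hsrc : (HT h x₀).src (h.dart h01) = ⟨v 0, hX 0 (Nat.zero_le n)⟩ :=
    Subtype.ext (by rw [HT_src]; exact htail)
  have htgt : (HT h x₀).tgt (h.dart h01) = ⟨v 1, hX 1 hn⟩ :=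
    Subtype.ext (by rw [HT_tgt]; exact hhead)
  refine ⟨h.dart h01, ?_, ?_, ?_, ?_, ?_⟩
  · show (tail (h.dart h01), head (h.dart h01)) = a
    rw [htail, hhead]
    exact Prod.ext hv0 hv1
  · rw [hsrc]
    exact ⟨far0, g, hg1, by rw [hg2]; exact hu⟩
  · show s ((HT h x₀).tgt (h.dart h01)).1 = false
    rw [htgt]
    exact hcol 1 one_pos hn
  · rw [htgt]
    exact hgb 1 hn
  · refine ⟨⟨v n, hX n le_rfl⟩, ⟨farn', g', hg1', by rw [hg2']; exact hu'⟩, ?_⟩
    rw [htgt]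
    obtain ⟨l, hl, hlm⟩ := HT_walk_seq h x₀ (n := n - 1) (v := fun i => v (i + 1))
      (fun i hi' => hXn (i + 1) (by omega)) (fun i hi' => hX (i + 1) (by omega))
    have e : (⟨v (n - 1 + 1), hX (n - 1 + 1) (by omega)⟩ : X) = ⟨v n, hX n le_rfl⟩ :=
      Subtype.ext (by show v (n - 1 + 1) = v n; rw [Nat.sub_add_cancel hn])
    refine ⟨l, ?_, fun g hg => ?_⟩
    · rw [← e]; exact hl
    · obtain ⟨i, hi', h7⟩ := hlm g hg
      refine ⟨?_, ?_⟩
      · show s ((HT h x₀).tgt g).1 = false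
        rw [h7]
        exact hcol (i + 1 + 1) (by omega) (by omega)
      · show ((HT h x₀).tgt g).1 ∈ gbox M j
        rw [h7]
        exact hgb (i + 1 + 1) (by omega)

end foot

end Vale.Agent.P148.R2.H488
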