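import Vale.Agent.P148.R2.H488.N4g
import Vale.Agent.P148.R2.H504.Local
import Vale.Agent.P148.R2.H172.Sc1
import Vale.Agent.P148.R2.H419.Col2
import Vale.Agent.P148.R2.H291.EvW

/-!
# Second moments of the values of the cells under the law of the comb

* `cF_sq_le` : on the good event the square of the value of a cell is at most the energy of the
  world of its window
* `comb_sq` : the second moment is at most `KC c κ * ms M ^ 2` (the hypothesis `hK` of
  `H504.quen_comb`)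
-/

set_option linter.unusedSectionVars false

open Set Relation Metric Function
open scoped ENNReal

namespace Vale.Agent.P148.R2.H488

open Vale.Agent.P148.R2.H258 Vale.Agent.P148.R2.H871 Vale.Agent.P148.R2.H565
open Vale.Agent.P148.R2.H184 (Dt cc LF EQ dt Faith rt)
open Vale.Agent.P148.R2.H592 (HullTri nbr nbr_symm ConnIn Fc Fib idmap fib_id tail head vc)
open Vale.Agent.P148.R2.H566 (W0)
open Vale.Agent.P148.R2.N (ms nc gateC cellC gbox cell csq ms_pos)
open Vale.Agent.P148.R2.H959 (reg)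
open Vale.Agent.P148.R2.H678 (core hub pin pout sd hbox inHub outHub)
open Vale.Agent.P148.R2.H504 (NAgree cF bset tk)
open Vale.Agent.P148.R2.H172 (combLaw cs)
open Vale.Agent.P148.R2.H938 (pc)
open Vale.Agent.P148.R2.H953 (ex pr On)
open Vale.Agent.P148.R2.H291 (site bR SiteOK CT CD)
open _root_.P148

section window

variable {M k j : ℕ}

/-- The two gate boxes of the window. -/
theorem gbox_sub_win (hM : 0 < M) (hj : j = gb M k ∨ j = gb M k + 5) :
    gbox M j ⊆ csq (cellC M k) (21 / 8 * ms M) := by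
  have h0 := ms_pos hM
  have hg := gb_add M k
  have e : cellC M (k + nc M) = cellC M k := N.cellC_add_nc M k
  have key : ∀ i, k + nc M ≤ i + 2 → i ≤ k + nc M + 2 →
      reg M i ⊆ csq (cellC M k) (21 / 8 * ms M) := by
    intro i h1 h2
    have h3 := H959.reg_subset_window hM (j := i) (k := k + nc M) (n := 2) h1 h2
    rw [e] at h3
    refine h3.trans (le_of_eq ?_)
    congr 1
    push_cast
    ring
  rcases hj with rfl | rfl
  · exact (H959.gbox_subset_reg M _).trans (key _ (by omega) (by omega))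
  · exact (H959.gbox_succ_subset_reg hM (gb M k + 4)).trans (key _ (by omega) (by omega))

theorem gbox_sub_Wd (hM : 0 < M) (hj : j = gb M k ∨ j = gb M k + 5) : gbox M j ⊆ Wd M k :=
  (gbox_sub_win hM hj).trans (H504.csq_mono (by have := ms_pos hM; linarith))

end window

section point

variable {V : Type*} [Fintype V] {e : V → ℂ} {M k : ℕ} {X : Set ℂ} {b : ZMod 3 → ℂ} {r : ℝ}
  {Θ : Dt → ℂ}

/-- **The square of the value of a cell**, on the good event. -/
theorem cF_sq_le (he : Injective e) (h : HullTri X b) (hX : range e = X) (hM : 2 ≤ M)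
    (hM0 : 0 < M) (hk : k ≤ nc M) (hK : Convex ℝ (Wd M k)) (hKo : IsOpen (Wd M k))
    (hb : ∀ j, b j ∉ Wd M k) (hbR : ∀ k j, b j ∉ reg M k)
    (hN : ∀ j, j = gb M k ∨ j = gb M k + 5 → NAgree X (X ∩ Wd M k) (gbox M j))
    (hF : SmallF X b (Wd M k) r) (hr : 0 ≤ r) (hr' : r < ms M / 16) {c₁ c₂ : V → Bool}
    (hA : (combLaw hM0 X e).A0 c₁ c₂) :
    ‖cF M e (fun k => cw (hc M k) Θ) k ((combLaw hM0 X e).w c₁ c₂)‖ ^ 2 ≤
      H203.tot (kw h hK hKo hb).T (kcol X (Wd M k) (cs e ((combLaw hM0 X e).w c₁ c₂)) true)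
        ((kw h hK hKo hb).th (cw (hc M k) Θ)) := by
  classical
  have hQ : Qw M (gb M k) = Wd M k := Qw_gb M k
  have hco := H172.combOK_of_A0 hM0 X he hX.le (inter_subset_left.trans hX.ge) hA
  set σ := (combLaw hM0 X e).w c₁ c₂ with hσ
  have hBs : ∀ z, z ∈ bset e σ ↔ cs e σ z = true := by
    intro z
    unfold cs
    rw [decide_eq_true_iff]
    exact Iff.rfl
  have hmem : ∀ {v : V} {c : Bool}, e v ∈ pc e c c₁ ↔ c₁ v = c := H172.mem_pc he
  unfold cF
  rw [hX]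
  refine cellV_sq_le hM hk (hco.hubs hM0 h ⟨b 0, h.mem 0⟩ (H419.regs_reg hM0) hbR) ?_
    (fun z _ _ => hBs z) hK hKo hb hF hr hr'
  intro j hj a ha
  have hgQ : gbox M j ⊆ Qw M (gb M k) := by rw [hQ]; exact gbox_sub_Wd hM0 hj
  have hbi : hbox M (pin M j) ⊆ gbox M j := H995.hbox_pin_sub hM0 j
  have hbo : hbox M (pout M j) ⊆ gbox M j := H995.hbox_pout_sub hM0 j
  refine foot_ok (Bk := bset e σ) (Wt := X \ bset e σ) hM0 (H419.regs_reg hM0) hbR hco
    (by rw [hQ]; exact hN j hj) inter_subset_left ?_ ?_ ?_ ?_ ?_ ha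
  · rintro z ⟨hz, hzQ⟩
    rw [← hBs]
    exact ⟨fun h1 => h1.1, fun h1 => ⟨h1, hzQ⟩⟩
  · intro z hz
    have hzX : z ∈ X := H678.hub_sub_X hz
    obtain ⟨v, rfl⟩ := hX.ge hzX
    have h1 := H172.w_mem hM0 X he (c₁ := c₁) (c₂ := c₂) (v := v) (H172.Ex_of_in X hz)
    rw [← hσ] at h1
    rw [hmem, mem_sdiff, hBs, H172.cs_apply he, h1]
    cases c₁ v <;> simp [hzX]
  · intro z hz
    have hzX : z ∈ X := H678.hub_sub_X hz
    obtain ⟨v, rfl⟩ := hX.ge hzX
    have h1 := H172.w_mem hM0 X he (c₁ := c₁) (c₂ := c₂) (v := v) (H172.Ex_of_out X hz)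
    rw [← hσ] at h1
    rw [hmem, hBs, H172.cs_apply he, h1]
  · ext z
    constructor
    · rintro ⟨⟨⟨h1, h2⟩, h3⟩, h4⟩
      exact ⟨⟨h1, fun h5 => h3 ⟨h5, h2⟩⟩, h4⟩
    · rintro ⟨⟨h1, h2⟩, h3⟩
      exact ⟨⟨⟨h1, hgQ (hbi h3)⟩, fun h5 => h2 h5.1⟩, h3⟩
  · ext z
    constructor
    · rintro ⟨⟨h1, h2⟩, h3⟩
      exact ⟨h1, h3⟩
    · rintro ⟨h1, h3⟩
      exact ⟨⟨h1, hgQ (hbo h3)⟩, h3⟩

end point

section law

variable {V : Type*} [Fintype V] {e : V → ℂ} {M k : ℕ} {X : Set ℂ} {b : ZMod 3 → ℂ} {r c : ℝ}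
  {τ : ℂ} {Θ : Dt → ℂ}

/-- **The second moment of the value of a cell**, in terms of the energy in a disc. -/
theorem comb_sq_aux (he : Injective e) (h : HullTri X b) (hX : range e = X) (hM : 2 ≤ M)
    (hM0 : 0 < M) (hk : k < nc M) (hK : Convex ℝ (Wd M k)) (hKo : IsOpen (Wd M k))
    (hb : ∀ j, b j ∉ Wd M k) (hbR : ∀ k j, b j ∉ reg M k)
    (hN : ∀ j, j = gb M k ∨ j = gb M k + 5 → NAgree X (X ∩ Wd M k) (gbox M j))
    (hF : SmallF X b (Wd M k) r) (hr : 0 ≤ r) (hr' : r < ms M / 16)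
    (hcp : 0 < c) (hH : ∀ k < nc M, c ≤ pr ((combLaw hM0 X e).He k))
    (hC : ∀ k < nc M, c ≤ pr ((combLaw hM0 X e).Ce k))
    (hτ : τ ^ 2 + τ + 1 = 0) (hΘ : ∀ d, Θ (rt d) = τ ^ 2 * Θ d) {E : ℝ} (hE0 : 0 ≤ E)
    {Q : Set ℂ} (hQ : ∀ z ∈ hc M k, closedBall z r ⊆ Q) (hE : EQ X Q Θ ≤ ENNReal.ofReal E) :
    (combLaw hM0 X e).qe (fun c₁ c₂ => ‖cF M e (fun k => cw (hc M k) Θ) k
      ((combLaw hM0 X e).w c₁ c₂)‖ ^ 2) ≤ (c ^ 44)⁻¹ * (E / 4) := by
  classical
  set g := combLaw hM0 X e with hg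
  set w := kw h hK hKo hb with hw
  have hc1 : c ≤ 1 := (hH 0 (nc_pos M)).trans (H953.pr_le_one _)
  have hsur : ∀ x ∈ X, x ∈ Wd M k → ∃ v, e v = x := fun x hx _ => hX.ge hx
  have hext : ∀ (t : V → Bool) (v : V), e v ∈ Wd M k → cs e t (e v) = t v :=
    fun t v _ => H172.cs_apply he t v
  have h1 : g.qe (fun c₁ c₂ => ‖cF M e (fun k => cw (hc M k) Θ) k (g.w c₁ c₂)‖ ^ 2) ≤
      g.qe (fun c₁ c₂ => H203.tot w.T (kcol X (Wd M k) (cs e (g.w c₁ c₂)) true)
        (w.th (cw (hc M k) Θ))) :=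
    g.qe_mono fun c₁ c₂ hA => cF_sq_le he h hX hM hM0 hk.le hK hKo hb hbR hN hF hr hr' hA
  have h2 := g.qe_le hcp hH hC (Z := e ⁻¹' H504.Zk M k) (t := tk M k)
    (H504.touch_tk g hM0 rfl (fun _ => rfl) (fun _ => rfl) k)
    (F := fun t => H203.tot w.T (kcol X (Wd M k) (cs e t) true) (w.th (cw (hc M k) Θ)))
    (kw_on h hK hKo hb hsur hext true (w.th (cw (hc M k) Θ)))
    (fun t => H203.tot_nonneg _ _ _)
  have h3 := kw_mean h hK hKo hb hsur hext true hτ (Ψ := cw (hc M k) Θ)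
    (cw_rot hΘ)
  have h4 : ∑ d, ‖w.th (cw (hc M k) Θ) d‖ ^ 2 ≤ E :=
    (ENNReal.ofReal_le_ofReal_iff hE0).1 ((kw_energy h hK hKo hb hF hr hQ Θ).trans hE)
  have h5 : (c ^ (2 * (tk M k).card))⁻¹ ≤ (c ^ 44)⁻¹ := by
    refine inv_anti₀ (by positivity) (pow_le_pow_of_le_one hcp.le hc1 ?_)
    have := H504.card_tk hM0 hk
    omega
  refine h1.trans (h2.trans ?_)
  rw [h3]
  have h6 : 0 ≤ ∑ d, ‖w.th (cw (hc M k) Θ) d‖ ^ 2 := Finset.sum_nonneg fun _ _ => by positivity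
  calc (c ^ (2 * (tk M k).card))⁻¹ * (1 / 4 * ∑ d, ‖w.th (cw (hc M k) Θ) d‖ ^ 2)
      ≤ (c ^ 44)⁻¹ * (1 / 4 * ∑ d, ‖w.th (cw (hc M k) Θ) d‖ ^ 2) :=
        mul_le_mul_of_nonneg_right h5 (by positivity)
    _ ≤ (c ^ 44)⁻¹ * (E / 4) := by
        refine mul_le_mul_of_nonneg_left ?_ (by positivity)
        linarith

end law

section site

variable {V : Type*} [Fintype V] {e : V → ℂ} {M k : ℕ} {T : Set Pt} {R s c κ : ℝ}
  {τ : ℂ} {Θ : Dt → ℂ}

/-- The windows are in a fixed disc. -/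
theorem Wd_sub_ball (hM : 2 ≤ M) (k : ℕ) : Wd M k ⊆ ball 0 6 := by
  intro w hw
  have h0 := ms_pos (show 0 < M by omega)
  have hMM := N.M_mul_ms (show 0 < M by omega)
  have h2 : (2 : ℝ) ≤ M := by exact_mod_cast hM
  have h1 := H504.norm_cellC_le (show 0 < M by omega) k
  have hw' : w ∈ csq (cellC M k) (3 * ms M) := hw
  rw [H504.mem_csq_nsup] at hw'
  have h3 := H291.norm_le_nsup (w - cellC M k)
  have h4 : ‖w‖ ≤ ‖w - cellC M k‖ + ‖cellC M k‖ := by
    have := norm_add_le (w - cellC M k) (cellC M k)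
    rwa [sub_add_cancel] at this
  have h5 : ms M ≤ 1 / 2 := by nlinarith
  rw [Metric.mem_ball, dist_zero_right]
  linarith

theorem Wd_convex (M k : ℕ) : Convex ℝ (Wd M k) := H565.convex_csq _ _

theorem Wd_open (M k : ℕ) : IsOpen (Wd M k) := H959.isOpen_csq _ _

/-- The faces in the windows are small. -/
theorem smallF_site (hM : 2 ≤ M) (hR : 7 ≤ R) (hT : SiteOK T R s) (k : ℕ) :
    SmallF (site T R) (bR R) (Wd M k) (s / 4) := fun q hq =>
  hT.lf (ball_subset_closedBall (ball_subset_ball (by linarith) (Wd_sub_ball hM k hq)))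

/-- The neighbours of the points of a gate box are seen in the window. -/
theorem nAgree_site (hM : 2 ≤ M) (hR : 7 ≤ R) (hT : SiteOK T R s) (hs : 16 * s ≤ ms M)
    {k j : ℕ} (hj : j = gb M k ∨ j = gb M k + 5) :
    NAgree (site T R) (site T R ∩ Wd M k) (gbox M j) := by
  have hM0 : 0 < M := by omega
  have h0 := ms_pos hM0
  refine H504.nAgree_window hT.hs (fun u hu => ?_) fun u hu => ?_
  · exact hT.stabX (ball_subset_closedBall (ball_subset_ball (by linarith)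
      (Wd_sub_ball hM k (gbox_sub_Wd hM0 hj hu))))
  · intro w hw
    have hu' := gbox_sub_win hM0 hj hu
    rw [mem_closedBall, dist_eq_norm] at hw
    show w ∈ csq (cellC M k) (3 * ms M)
    rw [H504.mem_csq_nsup] at hu' ⊢
    have h1 := H504.nsup_sub_le w u (cellC M k)
    have h2 := H291.nsup_le_norm (w - u)
    linarith

/-- The constant of the second moments. -/
noncomputable def KC (c κ : ℝ) : ℝ := (c ^ 44)⁻¹ * (675 * κ ^ 2 * CD 2 3)

/-- **The second moments of the values of the cells**, on the sites of a world. -/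
theorem comb_sq (he : Injective e) {Y : Set ℂ} (hY : Y = range e) (hr : range e = site T R)
    (hM : 2 ≤ M) (hM0 : 0 < M) (hk : k < nc M) (hR : 7 ≤ R) (hT : SiteOK T R s)
    (hs : 16 * s ≤ ms M) (hcp : 0 < c) (hH : ∀ k < nc M, c ≤ pr ((combLaw hM0 Y e).He k))
    (hC : ∀ k < nc M, c ≤ pr ((combLaw hM0 Y e).Ce k))
    (hτ : τ ^ 2 + τ + 1 = 0) (hΘ : ∀ d, Θ (rt d) = τ ^ 2 * Θ d)
    (hE : EQ (pts T) (closedBall (cellC M k) (2 * ms M)) Θ ≤ ENNReal.ofReal (CT κ (2 * ms M))) :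
    (combLaw hM0 Y e).qe (fun c₁ c₂ => ‖cF M e (fun k => cw (hc M k) Θ) k
      ((combLaw hM0 Y e).w c₁ c₂)‖ ^ 2) ≤ KC c κ * ms M ^ 2 := by
  subst hY
  have h0 := ms_pos hM0
  have hsp := hT.hs
  have hin : Wd M k ⊆ ball 0 R := (Wd_sub_ball hM k).trans (ball_subset_ball (by linarith))
  have hreg : ∀ k, reg M k ⊆ Wd M k := fun k =>
    (H959.reg_subset_csq hM0 k).trans (H504.csq_mono (by linarith))
  have hbW : ∀ j, bR R j ∉ Wd M k := fun j hj => hT.not_ball j (hin hj)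
  have hbR : ∀ k j, bR R j ∉ reg M k := fun k j hj => hT.not_ball j
    (((Wd_sub_ball hM k).trans (ball_subset_ball (by linarith))) (hreg k hj))
  have hX : range e = site T R := hr
  rw [hX] at hH hC ⊢
  have hdisc : closedBall (cellC M k) (2 * ms M) ⊆ ball 0 R := by
    intro w hw
    have h1 := H504.norm_cellC_le hM0 k
    have hMM := N.M_mul_ms hM0
    have h2 : (2 : ℝ) ≤ M := by exact_mod_cast hM
    have h5 : ms M ≤ 1 / 2 := by nlinarith
    rw [mem_closedBall, dist_eq_norm] at hw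
    have h4 : ‖w‖ ≤ ‖w - cellC M k‖ + ‖cellC M k‖ := by
      have := norm_add_le (w - cellC M k) (cellC M k)
      rwa [sub_add_cancel] at this
    rw [Metric.mem_ball, dist_zero_right]
    linarith
  have hE' : EQ (site T R) (closedBall (cellC M k) (2 * ms M)) Θ ≤
      ENNReal.ofReal (CT κ (2 * ms M)) := by
    rw [H184.EQ_congr (hT.agree hdisc)]
    exact hE
  have hCT : 0 ≤ CT κ (2 * ms M) :=
    mul_nonneg (mul_nonneg (by positivity) (H291.CD_nonneg 2 3)) (by positivity)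
  refine (comb_sq_aux he hT.hull hX hM hM0 hk (Wd_convex M k) (Wd_open M k) hbW hbR
    (fun j hj => nAgree_site hM hR hT hs hj) (smallF_site hM hR hT k) (by positivity)
    (by linarith) hcp hH hC hτ hΘ hCT (Q := closedBall (cellC M k) (2 * ms M)) ?_ hE').trans
    (le_of_eq ?_)
  · intro z hz w hw
    have h1 : w ∈ csq (cellC M k) (5 / 8 * ms M) := hc_ball_sub hz (by linarith) hw
    rw [H504.mem_csq_nsup] at h1
    rw [mem_closedBall, dist_eq_norm]
    have h3 := H291.norm_le_nsup (w - cellC M k)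
    linarith
  · unfold KC CT
    ring

end site

end Vale.Agent.P148.R2.H488
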