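import Mathlib

/-!
# P148: a square is good enough for the calibration of the LLN constant

Arcs of the unit square, counterclockwise: bottom side; right side and right half of the top side;
left half of the top side and left side.  If `x₀, x₁, x₂` are in the convex hulls of the three
arcs then `|x₀ + conj τ x₁ + τ x₂|² ≥ 3/7`.
-/

open Complex

namespace P148.H488

/-- The primitive cube root of unity `exp(2πi/3)`, as `-1/2 + i √3/2`. -/
noncomputable def tau' : ℂ := ⟨-1 / 2, Real.sqrt 3 / 2⟩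

/-- Norm of the rotating combination of three points. -/
theorem normSq_comb (x₀ x₁ x₂ : ℂ) :
    normSq (x₀ + (starRingEnd ℂ) tau' * x₁ + tau' * x₂) =
      (normSq (x₀ - x₁) + normSq (x₁ - x₂) + normSq (x₂ - x₀)) / 2 +
        Real.sqrt 3 * ((x₁.re - x₀.re) * (x₂.im - x₀.im) - (x₁.im - x₀.im) * (x₂.re - x₀.re)) := by
  have hsq : Real.sqrt 3 * Real.sqrt 3 = 3 := Real.mul_self_sqrt (by norm_num)
  have hsq' : Real.sqrt 3 ^ 2 = 3 := by rw [sq]; exact hsq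
  simp only [normSq_apply, tau', add_re, add_im, mul_re, mul_im, sub_re, sub_im, conj_re, conj_im]
  ring_nf
  rw [hsq']
  ring

/-- The hulls of the three arcs of the square are in convex position. -/
theorem det_nonneg {t a b c d : ℝ} (ht0 : 0 ≤ t) (ht1 : t ≤ 1) (ha : a ≤ 1) (hb : b ≤ 1)
    (hab : 2 ≤ 2 * a + b) (hc : 0 ≤ c) (hd : d ≤ 1) (hcd : 2 * c ≤ d) :
    0 ≤ (a - t) * d - b * (c - t) := by
  have h1 : 0 ≤ 1 - a := by linarith
  have h2 : 0 ≤ 1 - b := by linarith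
  have h3 : 0 ≤ 1 - d := by linarith
  have h4 : 0 ≤ 2 * a + b - 2 := by linarith
  have h5 : 0 ≤ d - 2 * c := by linarith
  have h6 : 0 ≤ 1 - t := by linarith
  have hb0 : 0 ≤ b := by linarith
  have hd0 : 0 ≤ d := by linarith
  nlinarith [mul_nonneg h1 h3, mul_nonneg h2 h3, mul_nonneg h4 h5, mul_nonneg h4 hc,
    mul_nonneg h1 hc, mul_nonneg h2 h5, mul_nonneg h1 h5, mul_nonneg ht0 hb0,
    mul_nonneg h6 hd0, mul_nonneg ht0 hd0, mul_nonneg h4 hd0, mul_nonneg hb0 h5,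
    mul_nonneg hb0 hc, mul_nonneg h4 h3, mul_nonneg h2 hc, mul_nonneg h6 hb0, mul_nonneg h2 hd0,
    mul_nonneg (mul_nonneg ht0 hb0) h2]

/-- **Calibration bound for the square.** -/
theorem square_calib {x₀ x₁ x₂ : ℂ} (h0 : x₀.im = 0) (h00 : 0 ≤ x₀.re) (h01 : x₀.re ≤ 1)
    (h1a : x₁.re ≤ 1) (h1b : x₁.im ≤ 1) (h1c : 2 ≤ 2 * x₁.re + x₁.im)
    (h2a : 0 ≤ x₂.re) (h2b : x₂.im ≤ 1) (h2c : 2 * x₂.re ≤ x₂.im) :
    3 / 7 ≤ ‖x₀ + (starRingEnd ℂ) tau' * x₁ + tau' * x₂‖ ^ 2 := by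
  rw [← normSq_eq_norm_sq, normSq_comb]
  have hdet := det_nonneg h00 h01 h1a h1b h1c h2a h2b h2c
  have hs : 0 ≤ Real.sqrt 3 * ((x₁.re - x₀.re) * (x₂.im - x₀.im) -
      (x₁.im - x₀.im) * (x₂.re - x₀.re)) := by
    apply mul_nonneg (Real.sqrt_nonneg _)
    rw [h0]; linarith
  have hF : 3 / 7 ≤ (normSq (x₀ - x₁) + normSq (x₁ - x₂) + normSq (x₂ - x₀)) / 2 := by
    simp only [normSq_apply, sub_re, sub_im, h0]
    nlinarith [sq_nonneg (x₁.re - x₀.re - 2 / 7), sq_nonneg (x₁.im - 3 / 7),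
      sq_nonneg (x₁.re - x₂.re - 4 / 7), sq_nonneg (x₁.im - x₂.im),
      sq_nonneg (x₂.re - x₀.re + 2 / 7), sq_nonneg (x₂.im - 3 / 7)]
  linarith

end P148.H488
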